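import Vale.Agent.P011.H775.Diag
import Vale.Agent.P011.H521.SplInd
import Mathlib.LinearAlgebra.Vandermonde

/-!
# Diagonal splittings of an algebra of degree three

A noncentral element `e` of a division algebra of degree three becomes a diagonal matrix with
distinct entries in a suitable splitting; the diagonal entries of an element `h` are all nonzero
unless `h` is orthogonal to the field generated by `e`.
-/

open Module Polynomial Matrix

namespace Vale.Agent.P011.H14

open Vale.Agent.P011.H775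

variable {K D : Type} [Field K] [DivisionRing D] [Algebra K D] [FiniteDimensional K D]

/-- The reduced characteristic polynomial. -/
noncomputable def rcp (C : Cub K D) (e : D) : K[X] :=
  X ^ 3 - Polynomial.C (C.T e) * X ^ 2 + Polynomial.C (C.S e) * X - Polynomial.C (C.N e)

omit [FiniteDimensional K D] in
theorem rcp_monic (C : Cub K D) (e : D) : (rcp C e).Monic := by
  unfold rcp
  monicity!

omit [FiniteDimensional K D] in
theorem rcp_natDegree (C : Cub K D) (e : D) : (rcp C e).natDegree = 3 := by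
  unfold rcp
  compute_degree!

omit [FiniteDimensional K D] in
theorem aeval_rcp (C : Cub K D) (e : D) : aeval e (rcp C e) = 0 := by
  have h := C.cayley e
  unfold rcp
  simp only [map_sub, map_add, map_mul, map_pow, aeval_X, aeval_C]
  rw [← h]
  simp only [Algebra.smul_def, mul_one]
  noncomm_ring

theorem minpoly_eq (C : Cub K D) (h9 : finrank K D = 3 ^ 2) {e : D}
    (he : e ∉ Set.range (algebraMap K D)) : minpoly K e = rcp C e := by
  have hint : IsIntegral K e := Algebra.IsIntegral.isIntegral e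
  have hd : ¬ (minpoly K e).natDegree ≤ 2 := by
    intro h
    have h2 := minpoly.aeval K e
    rw [aeval_eq_sum_range' (n := 3) (by omega), Finset.sum_range_succ, Finset.sum_range_succ,
      Finset.sum_range_one, pow_zero, pow_one, sq] at h2
    have h3 := H521.no_quad h9 he (α := (minpoly K e).coeff 2) (β := (minpoly K e).coeff 1)
      (γ := (minpoly K e).coeff 0) (by
        rw [← h2]
        abel)
    apply minpoly.ne_zero hint
    ext i
    rw [coeff_zero]
    rcases Nat.lt_or_ge i 3 with hi | hi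
    · interval_cases i
      · exact h3.2.2
      · exact h3.2.1
      · exact h3.1
    · exact coeff_eq_zero_of_natDegree_lt (by omega)
  refine (Polynomial.eq_of_monic_of_dvd_of_natDegree_le (minpoly.monic hint) (rcp_monic C e)
    (minpoly.dvd K e (aeval_rcp C e)) ?_).symm
  rw [rcp_natDegree]
  omega

/-- The reduced characteristic polynomial is separable if three is invertible. -/
theorem rcp_separable (C : Cub K D) (h9 : finrank K D = 3 ^ 2) (h3 : (3 : K) ≠ 0) {e : D}
    (he : e ∉ Set.range (algebraMap K D)) : (rcp C e).Separable := by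
  have hirr : Irreducible (rcp C e) := by
    rw [← minpoly_eq C h9 he]
    exact minpoly.irreducible (Algebra.IsIntegral.isIntegral e)
  rw [Polynomial.separable_iff_derivative_ne_zero hirr]
  intro h0
  have h1 : (derivative (rcp C e)).coeff 2 = 3 := by
    have h2 := (rcp_monic C e).coeff_natDegree
    rw [rcp_natDegree] at h2
    rw [coeff_derivative, h2, one_mul]
    norm_num
  rw [h0, coeff_zero] at h1
  exact h3 h1.symm

omit [FiniteDimensional K D] in
/-- **Diagonal splittings**, any characteristic. -/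
theorem exists_diag_split_sep (C : Cub K D) {e : D} (hsep : (rcp C e).Separable) :
    ∃ (Ω : Type) (_ : Field Ω) (_ : IsAlgClosed Ω) (_ : Algebra K Ω)
      (f : D →ₐ[K] Matrix (Fin 3) (Fin 3) Ω) (ep : Fin 3 → Ω), Function.Injective f ∧
      (∀ x, (f x).trace = algebraMap K Ω (C.T x)) ∧ (∀ x, (f x).det = algebraMap K Ω (C.N x)) ∧
      (∀ x, (f x).adjugate = f (C.adj x)) ∧ Function.Injective ep ∧
      f e = Matrix.diagonal ep ∧
      ∀ h : D, ¬ (C.T h = 0 ∧ C.T (h * e) = 0 ∧ C.T (h * e ^ 2) = 0) → ∀ j, f h j j ≠ 0 := by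
  classical
  obtain ⟨Ω₀, _, _, f₀, hf₀, hT₀, hN₀, hA₀⟩ := C.spl
  set Ω := AlgebraicClosure Ω₀ with hΩ
  let f₁ : D →ₐ[K] Matrix (Fin 3) (Fin 3) Ω :=
    (IsScalarTower.toAlgHom K Ω₀ Ω).mapMatrix.comp f₀
  have hf₁ : ∀ x, f₁ x = (f₀ x).map (algebraMap Ω₀ Ω) := fun x => rfl
  have hinj : Function.Injective f₁ := by
    intro x y hxy
    apply hf₀
    rw [hf₁, hf₁] at hxy
    exact Matrix.map_injective (algebraMap Ω₀ Ω).injective hxy
  have hT₁ : ∀ x, (f₁ x).trace = algebraMap K Ω (C.T x) := fun x => by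
    rw [hf₁, IsScalarTower.algebraMap_apply K Ω₀ Ω, ← hT₀, Matrix.trace, Matrix.trace, map_sum]
    rfl
  have hN₁ : ∀ x, (f₁ x).det = algebraMap K Ω (C.N x) := fun x => by
    rw [hf₁, IsScalarTower.algebraMap_apply K Ω₀ Ω, ← hN₀, RingHom.map_det]
    rfl
  have hA₁ : ∀ x, (f₁ x).adjugate = f₁ (C.adj x) := fun x => by
    rw [hf₁, hf₁, ← hA₀]
    exact (RingHom.map_adjugate (algebraMap Ω₀ Ω) (f₀ x)).symm
  -- the eigenvalues
  have hspl : ((rcp C e).map (algebraMap K Ω)).Splits := IsAlgClosed.splits _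
  have hcard : Fintype.card ((rcp C e).rootSet Ω) = 3 := by
    rw [Polynomial.card_rootSet_eq_natDegree hsep hspl, rcp_natDegree]
  let ee : Fin 3 ≃ ((rcp C e).rootSet Ω) := (Fintype.equivFinOfCardEq hcard).symm
  let ep : Fin 3 → Ω := fun i => (ee i : Ω)
  have hep : Function.Injective ep := fun i j h => ee.injective (Subtype.ext h)
  have hchar : (f₁ e).charpoly = (rcp C e).map (algebraMap K Ω) := by
    have hS : (f₁ e).adjugate.trace = algebraMap K Ω (C.S e) := by rw [hA₁, hT₁, Cub.S]
    rw [mat_charpoly, hT₁, hN₁, hS, rcp]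
    simp only [Polynomial.map_sub, Polynomial.map_add, Polynomial.map_mul, Polynomial.map_pow,
      Polynomial.map_X, Polynomial.map_C]
  have hroot : ∀ i, (f₁ e).charpoly.eval (ep i) = 0 := fun i => by
    have h1 := (Polynomial.mem_rootSet.mp (ee i).2).2
    rw [hchar, Polynomial.eval_map, ← Polynomial.aeval_def]
    exact h1
  obtain ⟨Q₀, hQ₀, hQ⟩ := exists_diag hep hroot
  obtain ⟨Q, rfl⟩ := hQ₀
  let f : D →ₐ[K] Matrix (Fin 3) (Fin 3) Ω :=
    { toFun := fun x => (Q⁻¹ : (Matrix (Fin 3) (Fin 3) Ω)ˣ).1 * f₁ x * Q.1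
      map_one' := by simp
      map_mul' := fun x y => by
        rw [map_mul]
        calc (Q⁻¹ : (Matrix (Fin 3) (Fin 3) Ω)ˣ).1 * (f₁ x * f₁ y) * Q.1
            = (Q⁻¹ : (Matrix (Fin 3) (Fin 3) Ω)ˣ).1 * f₁ x * (1 * f₁ y) * Q.1 := by
              rw [one_mul]
              simp only [mul_assoc]
          _ = _ := by
              rw [← Units.mul_inv Q]
              simp only [mul_assoc]
      map_zero' := by simp
      map_add' := fun x y => by rw [map_add, mul_add, add_mul]
      commutes' := fun c => by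
        rw [AlgHom.commutes, ← Algebra.commutes, mul_assoc, Units.inv_mul, mul_one] }
  have hf : ∀ x, f x = (Q⁻¹ : (Matrix (Fin 3) (Fin 3) Ω)ˣ).1 * f₁ x * Q.1 := fun x => rfl
  have hfT : ∀ x, (f x).trace = algebraMap K Ω (C.T x) := fun x => by
    rw [hf, Matrix.trace_mul_comm, ← mul_assoc, Units.mul_inv, one_mul, hT₁]
  have hfe : f e = Matrix.diagonal ep := by
    rw [hf, mul_assoc, hQ, ← mul_assoc, Units.inv_mul, one_mul]
  refine ⟨Ω, inferInstance, inferInstance, inferInstance, f, ep, ?_, hfT, fun x => ?_, fun x => ?_,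
    hep, hfe, fun h hh j => ?_⟩
  · intro x y hxy
    rw [hf, hf] at hxy
    apply hinj
    have h := congrArg (fun Z => Q.1 * Z * (Q⁻¹ : (Matrix (Fin 3) (Fin 3) Ω)ˣ).1) hxy
    simpa [mul_assoc] using h
  · rw [hf, Matrix.det_mul_comm, ← mul_assoc, Units.mul_inv, one_mul, hN₁]
  · rw [hf, hf, adjugate_conj, hA₁]
  -- the projection to the field generated by `e`
  · have hpow : ∀ i : ℕ, f (e ^ i) = Matrix.diagonal fun j => ep j ^ i := by
      intro i
      rw [map_pow, hfe, Matrix.diagonal_pow]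
      rfl
    let V : Matrix (Fin 3) (Fin 3) Ω := Matrix.vandermonde ep
    have hV : V.det ≠ 0 := Matrix.det_vandermonde_ne_zero_iff.mpr hep
    obtain ⟨G, hGd'⟩ : ∃ G : Matrix (Fin 3) (Fin 3) K,
        ∀ i j : Fin 3, G i j = C.T (e ^ (i : ℕ) * e ^ (j : ℕ)) :=
      ⟨Matrix.of fun i j => C.T (e ^ (i : ℕ) * e ^ (j : ℕ)), fun i j => rfl⟩
    have hVa : ∀ i j : Fin 3, V i j = ep i ^ (j : ℕ) := fun i j => rfl
    have hG : G.map (algebraMap K Ω) = Vᵀ * V := by
      ext i j
      rw [Matrix.map_apply, hGd', ← hfT, map_mul, hpow, hpow,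
        Matrix.diagonal_mul_diagonal, Matrix.trace_diagonal, Matrix.mul_apply]
      rfl
    have hGd : G.det ≠ 0 := by
      intro h0
      have h1 : (G.map (algebraMap K Ω)).det = 0 := by
        have h2 := (algebraMap K Ω).map_det G
        rw [h0, map_zero] at h2
        exact h2.symm
      rw [hG, Matrix.det_mul, Matrix.det_transpose] at h1
      exact mul_ne_zero hV hV h1
    obtain ⟨c, hc⟩ : ∃ c : Fin 3 → K, G *ᵥ c = fun i : Fin 3 => C.T (h * e ^ (i : ℕ)) := by
      refine ⟨G⁻¹ *ᵥ (fun i : Fin 3 => C.T (h * e ^ (i : ℕ))), ?_⟩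
      rw [Matrix.mulVec_mulVec, Matrix.mul_nonsing_inv _ (isUnit_iff_ne_zero.mpr hGd),
        Matrix.one_mulVec]
    obtain ⟨α, hα⟩ : ∃ α : D, α = ∑ i : Fin 3, c i • e ^ (i : ℕ) := ⟨_, rfl⟩
    have hfα : f α = Matrix.diagonal fun j => ∑ i : Fin 3, algebraMap K Ω (c i) * ep j ^ (i : ℕ) := by
      rw [hα, map_sum]
      ext a b
      rw [Matrix.sum_apply, Matrix.diagonal_apply]
      simp only [map_smul, hpow, Matrix.smul_apply, Matrix.diagonal_apply]
      split_ifs
      · exact Finset.sum_congr rfl fun i _ => by rw [Algebra.smul_def]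
      · exact Finset.sum_eq_zero fun i _ => smul_zero _
    have hTα : ∀ i : Fin 3, C.T (α * e ^ (i : ℕ)) = C.T (h * e ^ (i : ℕ)) := by
      intro i
      rw [← congrFun hc i, hα, Finset.sum_mul, map_sum, Matrix.mulVec, dotProduct]
      refine Finset.sum_congr rfl fun l _ => ?_
      rw [smul_mul_assoc, map_smul, hGd', smul_eq_mul, ← pow_add, ← pow_add,
        add_comm, mul_comm]
    have hα0 : α ≠ 0 := by
      intro h0
      apply hh
      have h1 := hTα 0
      have h2 := hTα 1
      have h3 := hTα 2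
      rw [h0, zero_mul, map_zero] at h1 h2 h3
      refine ⟨?_, ?_, ?_⟩
      · rw [h1]
        simp
      · rw [h2]
        simp
      · rw [h3]
        simp
    -- the diagonal entries
    have hdiff : (fun l => f h l l - f α l l) = 0 := by
      apply Matrix.eq_zero_of_vecMul_eq_zero hV
      ext i
      have h1 : ∀ x : D, ∑ l, f x l l * ep l ^ (i : ℕ) = algebraMap K Ω (C.T (x * e ^ (i : ℕ))) := by
        intro x
        rw [← hfT, map_mul, hpow, Matrix.trace]
        refine Finset.sum_congr rfl fun l _ => ?_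
        rw [Matrix.diag_apply, Matrix.mul_diagonal]
      have h2 : ((fun l => f h l l - f α l l) ᵥ* V) i =
          ∑ l, f h l l * ep l ^ (i : ℕ) - ∑ l, f α l l * ep l ^ (i : ℕ) := by
        rw [Matrix.vecMul, dotProduct, ← Finset.sum_sub_distrib]
        refine Finset.sum_congr rfl fun l _ => ?_
        rw [hVa, sub_mul]
      rw [h2, h1, h1, hTα, sub_self]
      rfl
    have h4 : f h j j = f α j j := sub_eq_zero.mp (congrFun hdiff j)
    rw [h4]
    intro h5
    have h6 : IsUnit (f α) := (isUnit_iff_ne_zero.mpr hα0).map f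
    rw [Matrix.isUnit_iff_isUnit_det, hfα, Matrix.det_diagonal] at h6
    rw [hfα, Matrix.diagonal_apply_eq] at h5
    exact h6.ne_zero (Finset.prod_eq_zero (Finset.mem_univ j) h5)

/-- **Diagonal splittings.** -/
theorem exists_diag_split [CharZero K] (C : Cub K D) (h9 : finrank K D = 3 ^ 2) {e : D}
    (he : e ∉ Set.range (algebraMap K D)) :
    ∃ (Ω : Type) (_ : Field Ω) (_ : IsAlgClosed Ω) (_ : Algebra K Ω)
      (f : D →ₐ[K] Matrix (Fin 3) (Fin 3) Ω) (ep : Fin 3 → Ω), Function.Injective f ∧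
      (∀ x, (f x).trace = algebraMap K Ω (C.T x)) ∧ (∀ x, (f x).det = algebraMap K Ω (C.N x)) ∧
      (∀ x, (f x).adjugate = f (C.adj x)) ∧ Function.Injective ep ∧
      f e = Matrix.diagonal ep ∧
      ∀ h : D, ¬ (C.T h = 0 ∧ C.T (h * e) = 0 ∧ C.T (h * e ^ 2) = 0) → ∀ j, f h j j ≠ 0 :=
  exists_diag_split_sep C (rcp_separable C h9 (by norm_num) he)

end Vale.Agent.P011.H14
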