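import Vale.Agent.P011.H182.Coset3

/-!
# Elements of a normal subgroup of finite index with prescribed behaviour outside `Tdiv`

`Q` is a normal subgroup of finite index of `SU_1(D, *)`.  At finitely many finite places outside
`Tdiv` the elements of `Q` approximate arbitrary elements of `SU_1(D, *)`, while they stay close to
one at finitely many other places, at the archimedean places, and are integral at the remaining
places with the exception of one place `q` outside `Tdiv`.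

This is applied to the elements `u z u⁻¹ w⁻¹`, which are congruent modulo `Q` to `x`, when
`z = x w` and `u`, `z u z⁻¹` are in `Q`.
-/

open Module NumberField IsDedekindDomain Topology Filter

set_option linter.unusedSectionVars false

namespace Vale.Agent.P011.H14

open Vale.Agent.P011.Arith Vale.Agent.P011.Even Vale.Agent.P011.Two Vale.Agent.P011.One
  Vale.Agent.P011.MPQ Vale.Agent.P011.H182

section est

variable {k D : Type} [Field k] [NumberField k] [DivisionRing D] [Algebra k D] {N : ℕ}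
  (B : Basis (Fin N) k D)

/-- Products of elements close to given ones. -/
theorem near_prod (a : AbsoluteValue k ℝ) (g h : D) {ε : ℝ} (hε : 0 < ε) :
    ∃ δ : ℝ, 0 < δ ∧ ∀ x y : D, na B a (x - g) < δ → na B a (y - h) < δ →
      na B a (x * y - g * h) < ε := by
  obtain ⟨C, hC1, hCm⟩ := na_mul B a
  have hg := na_nonneg B a g
  have hh := na_nonneg B a h
  have hC0 : 0 < C := by linarith
  obtain ⟨W, hW⟩ : ∃ W : ℝ, W = C * (na B a h + 1) + C * na B a g + 1 := ⟨_, rfl⟩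
  have hW0 : 0 < W := by rw [hW]; positivity
  refine ⟨min 1 (ε / W), lt_min one_pos (by positivity), fun x y hx hy => ?_⟩
  have hx2 := hx.trans_le (min_le_right _ _)
  have hy1 := hy.trans_le (min_le_left _ _)
  have hy2 := hy.trans_le (min_le_right _ _)
  have e : x * y - g * h = (x - g) * y + g * (y - h) := by noncomm_ring
  have hyn : na B a y ≤ na B a h + 1 := by
    have e1 : na B a y = na B a (h + (y - h)) := by
      congr 1
      abel
    rw [e1]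
    exact (na_add_le _ _ _ _).trans (by linarith)
  have hx0 := na_nonneg B a (x - g)
  have hy0 := na_nonneg B a (y - h)
  have h1 : na B a ((x - g) * y) ≤ C * (na B a h + 1) * (ε / W) := by
    refine (hCm _ _).trans ?_
    calc C * na B a (x - g) * na B a y ≤ C * (ε / W) * (na B a h + 1) :=
          mul_le_mul (mul_le_mul_of_nonneg_left hx2.le hC0.le) hyn (na_nonneg _ _ _)
            (mul_nonneg hC0.le (by positivity))
      _ = C * (na B a h + 1) * (ε / W) := by ring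
  have h2 : na B a (g * (y - h)) ≤ C * na B a g * (ε / W) :=
    (hCm _ _).trans (mul_le_mul_of_nonneg_left hy2.le (mul_nonneg hC0.le hg))
  rw [e]
  refine (na_add_le _ _ _ _).trans_lt ?_
  have h3 : C * (na B a h + 1) * (ε / W) + C * na B a g * (ε / W) = ε - ε / W := by
    have h4 : C * (na B a h + 1) + C * na B a g = W - 1 := by rw [hW]; ring
    calc C * (na B a h + 1) * (ε / W) + C * na B a g * (ε / W)
        = (C * (na B a h + 1) + C * na B a g) * (ε / W) := by ring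
      _ = (W - 1) * (ε / W) := by rw [h4]
      _ = ε - ε / W := by field_simp
  have h5 : 0 < ε / W := by positivity
  linarith

end est

variable {k K D : Type} [Field k] [NumberField k] [Field K] [NumberField K] [StarRing K]
  [DivisionRing D] [StarRing D] [Algebra k K] [Algebra k D] [Algebra K D] [IsScalarTower k K D]
  {d : kˣ} {s : K} {N : ℕ} {Ω : Type} [Field Ω] [Algebra K Ω] {n : ℕ}
  {f : D →ₐ[K] Matrix (Fin n) (Fin n) Ω} {B : Basis (Fin N) k D}

theorem glob_aux (hS : Setting k K D d s) (hn : 3 ≤ n) (hdeg : finrank K D = n ^ 2)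
    (f : D →ₐ[K] Matrix (Fin n) (Fin n) Ω) (B : Basis (Fin N) k D) {Q : Subgroup (SUD f)}
    [hQ : Q.Normal] (hi : Q.index ≠ 0) {q : HeightOneSpectrum (𝓞 k)}
    (hq : (Sum.inl q : Pl k) ∉ Tdiv k K D) {T : Set (HeightOneSpectrum (𝓞 k))} (hT : T.Finite)
    (hb : Bad B ⊆ T) (g : HeightOneSpectrum (𝓞 k) → SUD f)
    (F : Finset (HeightOneSpectrum (𝓞 k))) :
    (∀ v ∈ F, v ∈ T ∧ v ≠ q ∧ (Sum.inl v : Pl k) ∉ Tdiv k K D) → ∀ ε : ℝ, 0 < ε →
    ∃ u ∈ Q, (∀ v ∈ F, na B (fa v) (((u : Dˣ) : D) - ((g v : Dˣ) : D)) < ε) ∧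
      (∀ v ∈ T, v ∉ F → v ≠ q → na B (fa v) (((u : Dˣ) : D) - 1) < ε) ∧
      (∀ φ : k →+* ℂ, na B (cAbv φ) (((u : Dˣ) : D) - 1) < ε) ∧
      ∀ v, v ∉ T → v ≠ q → Ig B (fa v) ((u : Dˣ) : D) := by
  classical
  have hcoe1 : (((1 : SUD f) : Dˣ) : D) = 1 := rfl
  induction F using Finset.induction_on with
  | empty =>
    intro _ ε hε
    refine ⟨1, Q.one_mem, fun v hv => absurd hv (Finset.notMem_empty v), fun v _ _ _ => ?_,
      fun φ => ?_, fun v hv _ => ?_⟩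
    · rw [hcoe1, sub_self, na_zero]
      exact hε
    · rw [hcoe1, sub_self, na_zero]
      exact hε
    · have hgd : Gd B (fa v) := by
        by_contra hcon
        exact hv (hb hcon)
      rw [hcoe1]
      exact hgd.one
  | insert v₀ F hv₀ ih =>
    intro hF ε hε
    obtain ⟨hv₀T, hv₀q, hv₀d⟩ := hF v₀ (Finset.mem_insert_self _ _)
    have hF' : ∀ v ∈ F, v ∈ T ∧ v ≠ q ∧ (Sum.inl v : Pl k) ∉ Tdiv k K D := fun v hv =>
      hF v (Finset.mem_insert_of_mem hv)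
    choose δ1 hδ1 h1 using fun v : HeightOneSpectrum (𝓞 k) =>
      near_prod B (fa v) ((g v : Dˣ) : D) 1 hε
    choose δ2 hδ2 h2 using fun v : HeightOneSpectrum (𝓞 k) =>
      near_prod B (fa v) 1 ((g v : Dˣ) : D) hε
    choose δ3 hδ3 h3 using fun v : HeightOneSpectrum (𝓞 k) => near_prod B (fa v) 1 1 hε
    choose δ4 hδ4 h4 using fun φ : k →+* ℂ => near_prod B (cAbv φ) 1 1 hε
    obtain ⟨e1, he1, hle1⟩ := exists_lower hT (u := fun v => min (δ1 v) (min (δ2 v) (δ3 v)))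
      fun v _ => lt_min (hδ1 v) (lt_min (hδ2 v) (hδ3 v))
    obtain ⟨e2, he2, hle2⟩ := exists_lower (Set.finite_univ (α := k →+* ℂ)) (u := δ4)
      fun φ _ => hδ4 φ
    obtain ⟨δ, hδ, hδ1', hδ2', hδ3', hδ4'⟩ : ∃ δ : ℝ, 0 < δ ∧ (∀ v ∈ T, δ ≤ δ1 v) ∧
        (∀ v ∈ T, δ ≤ δ2 v) ∧ (∀ v ∈ T, δ ≤ δ3 v) ∧ ∀ φ, δ ≤ δ4 φ := by
      refine ⟨min e1 e2, lt_min he1 he2, fun v hv => ?_, fun v hv => ?_, fun v hv => ?_,
        fun φ => (min_le_right _ _).trans (hle2 φ (Set.mem_univ _))⟩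
      · exact (min_le_left _ _).trans ((hle1 v hv).trans (min_le_left _ _))
      · exact (min_le_left _ _).trans ((hle1 v hv).trans ((min_le_right _ _).trans
          (min_le_left _ _)))
      · exact (min_le_left _ _).trans ((hle1 v hv).trans ((min_le_right _ _).trans
          (min_le_right _ _)))
    obtain ⟨u, huQ, hu1, hu2, hu3, hu4⟩ := ih hF' δ hδ
    obtain ⟨_, ⟨x, hxQ, rfl⟩, ⟨hx1, hx2, hx3⟩, hxv⟩ := apx hS hn hdeg hv₀d hv₀q (M := Im Q)
      im_sub one_im (fun _ ha _ hb => mul_im ha hb) inv_im (conj_im hQ)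
      (inf_of_index hS hn hdeg (B := B) hq Q hi) T hT hb δ hδ _ (g v₀).2 δ hδ
    have hns : ∀ v, v ≠ v₀ → v ≠ q → v ∉ ({v₀, q} : Set (HeightOneSpectrum (𝓞 k))) := by
      intro v hv hvq
      rw [Set.mem_insert_iff, not_or]
      exact ⟨hv, hvq⟩
    refine ⟨u * x, Q.mul_mem huQ hxQ, fun v hv => ?_, fun v hv hvF hvq => ?_, fun φ => ?_,
      fun v hv hvq => ?_⟩
    · rw [coe_mul']
      by_cases hvv : v = v₀
      · subst hvv
        have h5 := h2 v _ _ ((hu2 v hv₀T hv₀ hv₀q).trans_le (hδ2' v hv₀T))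
          (hxv.trans_le (hδ2' v hv₀T))
        rwa [one_mul] at h5
      · have hvF : v ∈ F := (Finset.mem_insert.mp hv).resolve_left hvv
        obtain ⟨hvT, hvq, -⟩ := hF' v hvF
        have h5 := h1 v _ _ ((hu1 v hvF).trans_le (hδ1' v hvT))
          ((hx1 v hvT (hns v hvv hvq)).trans_le (hδ1' v hvT))
        rwa [mul_one] at h5
    · rw [Finset.mem_insert, not_or] at hvF
      rw [coe_mul']
      have h5 := h3 v _ _ ((hu2 v hv hvF.2 hvq).trans_le (hδ3' v hv))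
        ((hx1 v hv (hns v hvF.1 hvq)).trans_le (hδ3' v hv))
      rwa [mul_one] at h5
    · rw [coe_mul']
      have h5 := h4 φ _ _ ((hu3 φ).trans_le (hδ4' φ)) ((hx3 φ).trans_le (hδ4' φ))
      rwa [mul_one] at h5
    · have hgd : Gd B (fa v) := by
        by_contra hcon
        exact hv (hb hcon)
      rw [coe_mul']
      exact hgd.mul' (hu4 v hv hvq) (hx2 v hv (hns v (fun h => hv (h ▸ hv₀T)) hvq))

/-- Conjugation by a unitary element. -/
def cj (f : D →ₐ[K] Matrix (Fin n) (Fin n) Ω) (z : Dˣ) (hz : (z : D) * star (z : D) = 1) :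
    SUD f →* SUD f where
  toFun g := ⟨z * (g : Dˣ) * z⁻¹, by
    have hsz : star (z : D) = ((z⁻¹ : Dˣ) : D) := by
      rw [← Units.mul_right_inj z, hz, Units.mul_inv]
    have hsz' : star ((z⁻¹ : Dˣ) : D) = (z : D) := by rw [← hsz, star_star]
    refine mem_SUD.mpr ⟨?_, ?_⟩
    · rw [Units.val_mul, Units.val_mul, star_mul, star_mul, hsz', hsz]
      have h1 : ((g : Dˣ) : D) * star ((g : Dˣ) : D) = 1 := g.2.1
      calc (z : D) * ((g : Dˣ) : D) * ((z⁻¹ : Dˣ) : D) * ((z : D) * (star ((g : Dˣ) : D) *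
            ((z⁻¹ : Dˣ) : D))) = (z : D) * (((g : Dˣ) : D) * (((z⁻¹ : Dˣ) : D) * (z : D)) *
            star ((g : Dˣ) : D)) * ((z⁻¹ : Dˣ) : D) := by simp only [mul_assoc]
        _ = 1 := by rw [Units.inv_mul, mul_one, h1, mul_one, Units.mul_inv]
    · rw [Units.val_mul, Units.val_mul, map_mul, map_mul, Matrix.det_mul, Matrix.det_mul,
        mul_comm (f (z : D)).det, mul_assoc, ← Matrix.det_mul, ← map_mul, Units.mul_inv, map_one,
        Matrix.det_one, mul_one]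
      exact g.2.2⟩
  map_one' := by
    apply Subtype.ext
    simp
  map_mul' a b := by
    apply Subtype.ext
    simp only [Subgroup.coe_mul]
    group

theorem coe_cj (z : Dˣ) (hz : (z : D) * star (z : D) = 1) (g : SUD f) :
    ((cj f z hz g : Dˣ) : D) = (z : D) * ((g : Dˣ) : D) * (z : D)⁻¹ := by
  have h1 : ((cj f z hz g : SUD f) : Dˣ) = z * (g : Dˣ) * z⁻¹ := rfl
  rw [h1, Units.val_mul, Units.val_mul, Units.val_inv_eq_inv_val]

/-- **Prescribed behaviour at finitely many places outside `Tdiv`**, simultaneously for `u` and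
`z u z⁻¹`. -/
theorem glob (hS : Setting k K D d s) (hn : 3 ≤ n) (hdeg : finrank K D = n ^ 2)
    (f : D →ₐ[K] Matrix (Fin n) (Fin n) Ω) (B : Basis (Fin N) k D) {Q : Subgroup (SUD f)}
    [hQ : Q.Normal] (hi : Q.index ≠ 0) {q : HeightOneSpectrum (𝓞 k)}
    (hq : (Sum.inl q : Pl k) ∉ Tdiv k K D) {T S₁ : Set (HeightOneSpectrum (𝓞 k))}
    (hT : T.Finite) (hb : Bad B ⊆ T) (hS₁ : S₁.Finite)
    (hS₁T : ∀ v ∈ S₁, v ∉ T ∧ v ≠ q ∧ (Sum.inl v : Pl k) ∉ Tdiv k K D)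
    (g : HeightOneSpectrum (𝓞 k) → SUD f) (z : Dˣ) (hz : (z : D) * star (z : D) = 1) {ε : ℝ}
    (hε : 0 < ε) : ∃ u ∈ Q, cj f z hz u ∈ Q ∧
      (∀ v ∈ S₁, na B (fa v) (((u : Dˣ) : D) - ((g v : Dˣ) : D)) < ε) ∧
      (∀ v ∈ T, v ≠ q → na B (fa v) (((u : Dˣ) : D) - 1) < ε) ∧
      (∀ φ : k →+* ℂ, na B (cAbv φ) (((u : Dˣ) : D) - 1) < ε) ∧
      ∀ v, v ∉ T → v ∉ S₁ → v ≠ q → Ig B (fa v) ((u : Dˣ) : D) := by
  have hnc : (Q.comap (cj f z hz)).Normal := hQ.comap _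
  have hic : (Q.comap (cj f z hz)).index ≠ 0 := by
    have h1 := Subgroup.relIndex_comap_ne_zero (cj f z hz) (J := Q) (K := ⊤)
      (by rwa [Subgroup.relIndex_top_right])
    rwa [Subgroup.comap_top, Subgroup.relIndex_top_right] at h1
  obtain ⟨u, huQ, hu1, hu2, hu3, hu4⟩ := glob_aux hS hn hdeg f B
    (Q := Q ⊓ Q.comap (cj f z hz)) (Subgroup.index_inf_ne_zero hi hic) hq
    (hT.union hS₁) (hb.trans Set.subset_union_left) g hS₁.toFinset (by
      intro v hv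
      rw [Set.Finite.mem_toFinset] at hv
      exact ⟨Or.inr hv, (hS₁T v hv).2⟩) ε hε
  refine ⟨u, huQ.1, huQ.2, fun v hv => hu1 v (hS₁.mem_toFinset.mpr hv), fun v hv hvq => ?_, hu3,
    fun v hv hv1 hvq => hu4 v ?_ hvq⟩
  · refine hu2 v (Or.inl hv) (fun h => ?_) hvq
    exact (hS₁T v (hS₁.mem_toFinset.mp h)).1 hv
  · rw [Set.mem_union, not_or]
    exact ⟨hv, hv1⟩

/-- **The move.**  `x` is congruent modulo `Q` to an element `x' = u (x w) u⁻¹ w⁻¹`, where `u` is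
close to given elements `g v` at finitely many places outside `Tdiv`, `u` is close to one at the
places of `T` and at all archimedean places, and integral at the other places. -/
theorem move (hS : Setting k K D d s) (hn : 3 ≤ n) (hdeg : finrank K D = n ^ 2)
    (f : D →ₐ[K] Matrix (Fin n) (Fin n) Ω) (B : Basis (Fin N) k D) {Q : Subgroup (SUD f)}
    [hQ : Q.Normal] (hi : Q.index ≠ 0) {q : HeightOneSpectrum (𝓞 k)}
    (hq : (Sum.inl q : Pl k) ∉ Tdiv k K D) {T S₁ : Set (HeightOneSpectrum (𝓞 k))}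
    (hT : T.Finite) (hb : Bad B ⊆ T) (hS₁ : S₁.Finite)
    (hS₁T : ∀ v ∈ S₁, v ∉ T ∧ v ≠ q ∧ (Sum.inl v : Pl k) ∉ Tdiv k K D)
    (g : HeightOneSpectrum (𝓞 k) → SUD f) (x : SUD f) {w : D} (hw : w * star w = 1) {ε : ℝ}
    (hε : 0 < ε) : ∃ u x' : SUD f,
      ((x' : Dˣ) : D) = ((u : Dˣ) : D) * (((x : Dˣ) : D) * w) * ((u : Dˣ) : D)⁻¹ * w⁻¹ ∧
      x⁻¹ * x' ∈ Q ∧
      (∀ v ∈ S₁, na B (fa v) (((u : Dˣ) : D) - ((g v : Dˣ) : D)) < ε) ∧
      (∀ v ∈ T, v ≠ q → na B (fa v) (((u : Dˣ) : D) - 1) < ε ∧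
        na B (fa v) (((x' : Dˣ) : D) - ((x : Dˣ) : D)) < ε) ∧
      (∀ φ : k →+* ℂ, na B (cAbv φ) (((u : Dˣ) : D) - 1) < ε ∧
        na B (cAbv φ) (((x' : Dˣ) : D) - ((x : Dˣ) : D)) < ε) ∧
      ∀ v, v ∉ T → v ∉ S₁ → v ≠ q → Ig B (fa v) ((u : Dˣ) : D) ∧
        Ig B (fa v) ((u : Dˣ) : D)⁻¹ := by
  have hst : ∀ (c : k) (x : D), star (c • x) = c • star x :=
    fun c x => (Setting.sig hS).map_smul c x
  have hw0 : w ≠ 0 := left_ne_zero_of_mul_eq_one hw
  have hx0 : ((x : Dˣ) : D) ≠ 0 := Units.ne_zero _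
  obtain ⟨z, hzd⟩ : ∃ z : Dˣ, (z : D) = ((x : Dˣ) : D) * w :=
    ⟨Units.mk0 _ (mul_ne_zero hx0 hw0), rfl⟩
  have hx1 : ((x : Dˣ) : D) * star ((x : Dˣ) : D) = 1 := x.2.1
  have hz : (z : D) * star (z : D) = 1 := by
    rw [hzd, star_mul]
    calc ((x : Dˣ) : D) * w * (star w * star ((x : Dˣ) : D)) =
        ((x : Dˣ) : D) * (w * star w) * star ((x : Dˣ) : D) := by simp only [mul_assoc]
      _ = 1 := by rw [hw, mul_one, hx1]
  have hz0 : (z : D) ≠ 0 := Units.ne_zero _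
  -- margins
  have hmar : ∀ a : AbsoluteValue k ℝ, ∃ δ : ℝ, 0 < δ ∧ ∀ u : SUD f,
      na B a (((u : Dˣ) : D) - 1) < δ → na B a (((u : Dˣ) : D) *
        ((z : D) * star ((u : Dˣ) : D) * (z : D)⁻¹) * ((x : Dˣ) : D) - ((x : Dˣ) : D)) < ε := by
    intro a
    obtain ⟨δ1, hδ1, h1⟩ := near_prod B a 1 ((x : Dˣ) : D) hε
    obtain ⟨δ2, hδ2, h2⟩ := near_mul B hst a hδ1
    obtain ⟨δ3, hδ3, h3⟩ := near_conj B hst a hz0 hδ2
    obtain ⟨δ4, hδ4, h4⟩ := near_star B hst a hδ3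
    refine ⟨min δ2 δ4, lt_min hδ2 hδ4, fun u hu => ?_⟩
    have h5 := h1 _ ((x : Dˣ) : D) (h2 _ _ (hu.trans_le (min_le_left _ _))
      (h3 _ (h4 _ (hu.trans_le (min_le_right _ _))))) (by rw [sub_self, na_zero]; exact hδ1)
    rwa [one_mul] at h5
  choose δ hδ hδm using hmar
  obtain ⟨e1, he1, hle1⟩ := exists_lower hT (u := fun v => δ (fa v)) fun v _ => hδ _
  obtain ⟨e2, he2, hle2⟩ := exists_lower (Set.finite_univ (α := k →+* ℂ))
    (u := fun φ => δ (cAbv φ)) fun φ _ => hδ _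
  have hη : 0 < min ε (min e1 e2) := lt_min hε (lt_min he1 he2)
  obtain ⟨u, huQ, huz, hu1, hu2, hu3, hu4⟩ := glob hS hn hdeg f B hi hq hT hb hS₁ hS₁T g z hz hη
  have hu0 : ((u : Dˣ) : D) ≠ 0 := Units.ne_zero _
  have hsu : star ((u : Dˣ) : D) = ((u : Dˣ) : D)⁻¹ :=
    (inv_eq_of_mul_eq_one_right u.2.1).symm
  obtain ⟨x', hx'⟩ : ∃ x' : SUD f, x' = u * (cj f z hz u)⁻¹ * x := ⟨_, rfl⟩
  have hx'c : ((x' : Dˣ) : D) = ((u : Dˣ) : D) *
      ((z : D) * star ((u : Dˣ) : D) * (z : D)⁻¹) * ((x : Dˣ) : D) := by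
    rw [hx', coe_mul', coe_mul', coe_inv', coe_cj, hsu, mul_inv_rev, mul_inv_rev, inv_inv,
      ← mul_assoc (z : D)]
  refine ⟨u, x', ?_, ?_, fun v hv => (hu1 v hv).trans_le (min_le_left _ _), fun v hv hvq =>
    ⟨(hu2 v hv hvq).trans_le (min_le_left _ _), ?_⟩, fun φ =>
    ⟨(hu3 φ).trans_le (min_le_left _ _), ?_⟩, fun v hv hv1 hvq => ⟨hu4 v hv hv1 hvq, ?_⟩⟩
  · rw [hx'c, hsu, ← hzd]
    have e : (z : D)⁻¹ * ((x : Dˣ) : D) = w⁻¹ := by
      rw [hzd, mul_inv_rev, mul_assoc, inv_mul_cancel₀ hx0, mul_one]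
    simp only [mul_assoc]
    rw [e]
  · rw [hx']
    have h1 : u * (cj f z hz u)⁻¹ ∈ Q := Q.mul_mem huQ (Q.inv_mem huz)
    have h2 := hQ.conj_mem _ h1 x⁻¹
    rw [inv_inv] at h2
    rwa [← mul_assoc]
  · rw [hx'c]
    refine hδm _ u ((hu2 v hv hvq).trans_le ?_)
    exact (min_le_right _ _).trans ((min_le_left _ _).trans (hle1 v hv))
  · rw [hx'c]
    refine hδm _ u ((hu3 φ).trans_le ?_)
    exact (min_le_right _ _).trans ((min_le_right _ _).trans (hle2 φ (Set.mem_univ _)))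
  · have hgd : Gd B (fa v) := by
      by_contra hcon
      exact hv (hb hcon)
    rw [← hsu]
    exact hgd.star hst (hu4 v hv hv1 hvq)

end Vale.Agent.P011.H14
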