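import Vale.Agent.P011.H3.LocPair1
import Vale.Agent.P011.H182.LocAbs
import Mathlib.Topology.Algebra.Module.FiniteDimension

/-!
# From an exact pair in a local model to approximate global pairs

If `x w g = g w` has a solution in unitary elements of a local model of the algebra `D`, with `w`
regular and in general position, then the element `x` has approximate local pairs in `D`.
-/

open Module NumberField IsDedekindDomain Topology Filter

set_option linter.unusedSectionVars false

namespace Vale.Agent.P011.H14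

open Vale.Agent.P011.Arith Vale.Agent.P011.Even Vale.Agent.P011.Two Vale.Agent.P011.One
  Vale.Agent.P011.H182 Vale.Agent.P011.H775 Vale.Agent.P011.H929

section lim

variable {F E : Type} [NormedField F] [ProperSpace F] [Ring E] [Algebra F E] {N : ℕ}
  (BE : Basis (Fin N) F E)

/-- Convergence in the local algebra. -/
def LimE (u : ℕ → E) (Y : E) : Prop := Tendsto (fun j => ne BE (u j - Y)) atTop (𝓝 0)

variable {BE}

theorem ne_zero'' : ne BE (0 : E) = 0 := by simp [ne]

theorem ne_neg (x : E) : ne BE (-x) = ne BE x := by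
  have h := ne_smul BE (-1) x
  rwa [neg_one_smul, norm_neg, norm_one, one_mul] at h

theorem LimE.const (Y : E) : LimE BE (fun _ => Y) Y := by
  unfold LimE
  simp only [sub_self, ne_zero'']
  exact tendsto_const_nhds

theorem LimE.add {u v : ℕ → E} {Y Z : E} (hu : LimE BE u Y) (hv : LimE BE v Z) :
    LimE BE (fun j => u j + v j) (Y + Z) := by
  have h1 := Tendsto.add hu hv
  rw [add_zero] at h1
  refine squeeze_zero (fun j => ne_nonneg' BE _) (fun j => ?_) h1
  have e : u j + v j - (Y + Z) = (u j - Y) + (v j - Z) := by abel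
  rw [e]
  exact ne_add_le BE _ _

theorem LimE.lin {u : ℕ → E} {Y : E} (hu : LimE BE u Y) (L : E →ₗ[F] E) :
    LimE BE (fun j => L (u j)) (L Y) := by
  obtain ⟨C, hC, hL⟩ := ne_linear BE L
  have h1 := Tendsto.const_mul C hu
  rw [mul_zero] at h1
  refine squeeze_zero (fun j => ne_nonneg' BE _) (fun j => ?_) h1
  rw [← map_sub]
  exact hL _

theorem LimE.smul {u : ℕ → E} {Y : E} (hu : LimE BE u Y) (c : F) :
    LimE BE (fun j => c • u j) (c • Y) := by
  have h := hu.lin (c • (LinearMap.id : E →ₗ[F] E))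
  simpa only [LinearMap.smul_apply, LinearMap.id_apply] using h

theorem LimE.neg {u : ℕ → E} {Y : E} (hu : LimE BE u Y) : LimE BE (fun j => -u j) (-Y) := by
  have h := hu.smul (-1)
  simpa only [neg_one_smul] using h

theorem LimE.sub {u v : ℕ → E} {Y Z : E} (hu : LimE BE u Y) (hv : LimE BE v Z) :
    LimE BE (fun j => u j - v j) (Y - Z) := by
  simp only [sub_eq_add_neg]
  exact hu.add hv.neg

theorem LimE.bdd {u : ℕ → E} {Y : E} (hu : LimE BE u Y) :
    ∀ᶠ j in atTop, ne BE (u j) ≤ ne BE Y + 1 := by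
  have h1 : ∀ᶠ j in atTop, ne BE (u j - Y) < 1 := (tendsto_order.mp hu).2 1 one_pos
  filter_upwards [h1] with j hj
  have e : u j = Y + (u j - Y) := by abel
  rw [e]
  exact (ne_add_le BE _ _).trans (by linarith)

theorem LimE.mul {u v : ℕ → E} {Y Z : E} (hu : LimE BE u Y) (hv : LimE BE v Z) :
    LimE BE (fun j => u j * v j) (Y * Z) := by
  obtain ⟨C, hC, hCm⟩ := ne_mul BE
  have h1 : Tendsto (fun j => C * (ne BE Y + 1) * ne BE (v j - Z) + C * ne BE (u j - Y) * ne BE Z)
      atTop (𝓝 (C * (ne BE Y + 1) * 0 + C * 0 * ne BE Z)) :=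
    (Tendsto.const_mul _ hv).add ((Tendsto.const_mul C hu).mul_const _)
  rw [mul_zero, mul_zero, zero_mul, add_zero] at h1
  refine squeeze_zero' (Eventually.of_forall fun j => ne_nonneg' BE _) ?_ h1
  filter_upwards [hu.bdd] with j hj
  have e : u j * v j - Y * Z = u j * (v j - Z) + (u j - Y) * Z := by noncomm_ring
  rw [e]
  refine (ne_add_le BE _ _).trans (add_le_add ((hCm _ _).trans ?_) (hCm _ _))
  exact mul_le_mul_of_nonneg_right (mul_le_mul_of_nonneg_left hj hC.le) (ne_nonneg' BE _)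

theorem LimE.ev_lt {u : ℕ → E} {Y : E} (hu : LimE BE u Y) {ε : ℝ} (hε : 0 < ε) :
    ∀ᶠ j in atTop, ne BE (u j - Y) < ε := (tendsto_order.mp hu).2 ε hε

/-- The distance to a subspace is positive. -/
theorem exists_dist (hbig : ∃ t : F, 1 < ‖t‖) (V : Submodule F E) {y : E} (hy : y ∉ V) :
    ∃ c : ℝ, 0 < c ∧ ∀ z ∈ V, c ≤ ne BE (y - z) := by
  let _ : NontriviallyNormedField F :=
    { (inferInstance : NormedField F) with non_trivial := hbig }
  let φ : E ≃ₗ[F] (Fin N → F) := BE.equivFun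
  let V' : Submodule F (Fin N → F) := V.map (φ : E →ₗ[F] (Fin N → F))
  have hV' : IsClosed (V' : Set (Fin N → F)) := Submodule.closed_of_finiteDimensional V'
  have hy' : φ y ∉ V' := by
    rintro ⟨z, hz, h⟩
    exact hy (φ.injective h ▸ hz)
  obtain ⟨c, hc, hball⟩ := Metric.isOpen_iff.mp hV'.isOpen_compl (φ y) hy'
  refine ⟨c, hc, fun z hz => ?_⟩
  by_contra hcon
  push Not at hcon
  have h1 : φ z ∈ Metric.ball (φ y) c := by
    rw [Metric.mem_ball, dist_comm, dist_eq_norm, ← map_sub]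
    refine lt_of_le_of_lt ?_ hcon
    rw [pi_norm_le_iff_of_nonneg (ne_nonneg' BE _)]
    intro i
    exact Finset.single_le_sum (f := fun i => ‖BE.repr (y - z) i‖) (fun _ _ => norm_nonneg _)
      (Finset.mem_univ i)
  exact hball h1 ⟨z, hz, rfl⟩

end lim

section cub

variable {k K D : Type} [Field k] [NumberField k] [Field K] [StarRing K] [DivisionRing D]
  [StarRing D] [Algebra k K] [Algebra k D] [Algebra K D] [IsScalarTower k K D] (C : Cub K D)

/-- The derivative of the characteristic polynomial by linear maps over `k`. -/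
theorem dP_k (w : D) : dP C w = (3 : k) • (w * w) - (2 : k) • (Tk k C w * w) +
    (2⁻¹ : k) • (Tk k C w * Tk k C w - Tk k C (w * w)) := by
  have h2 : (2 : k) ≠ 0 := two_ne_zero
  have h3 : (2 : K) * C.S w = C.T w * C.T w - C.T (w * w) := by
    have h4 := congrArg C.T (C.adj_eq w)
    rw [map_add, map_sub, map_smul, map_smul, C.T_one, smul_eq_mul, smul_eq_mul] at h4
    have h5 : C.S w = C.T (C.adj w) := rfl
    rw [← h5] at h4
    linear_combination -h4
  have h6 : (2⁻¹ : k) • (Tk k C w * Tk k C w - Tk k C (w * w)) = C.S w • (1 : D) := by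
    have h7 : Tk k C w * Tk k C w - Tk k C (w * w) = (2 : k) • (C.S w • (1 : D)) := by
      rw [Tk_apply, Tk_apply, smul_mul_smul_comm, mul_one, ← sub_smul, ← h3, mul_smul]
      rw [← algebraMap_smul K (2 : k), map_ofNat]
    rw [h7, smul_smul, inv_mul_cancel₀ h2, one_smul]
  rw [h6, dP]
  congr 1
  have e3 : (3 : k) • (w * w) = (3 : K) • (w * w) := by
    rw [← algebraMap_smul K (3 : k), map_ofNat]
  have e2 : (2 : k) • (Tk k C w * w) = (2 * C.T w) • w := by
    rw [Tk_apply, smul_mul_assoc, one_mul, mul_smul, ← algebraMap_smul K (2 : k), map_ofNat]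
  rw [e3, e2]

end cub

variable {k K D : Type} [Field k] [NumberField k] [Field K] [StarRing K]
  [DivisionRing D] [StarRing D] [Algebra k K] [Algebra k D] [Algebra K D] [IsScalarTower k K D]
  {d : kˣ} {s : K} {N : ℕ}
  {F E : Type} [NormedField F] [ProperSpace F] [Algebra k F] [Ring E] [Algebra F E]
  {BE : Basis (Fin N) F E} {I : Two.Inv F E} {B : Basis (Fin N) k D}
  {a : AbsoluteValue k ℝ} {jm : D →+* E}

/-- Elements of the model are limits of elements of the algebra. -/
theorem exists_limE (h : Mdl BE I B a jm)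
    (hden : ∀ (y : F) (ε : ℝ), 0 < ε → ∃ x : k, ‖algebraMap k F x - y‖ < ε) (Y : E) :
    ∃ u : ℕ → D, LimE BE (fun j => jm (u j)) Y := by
  choose c hc using fun (j : ℕ) (i : Fin N) => hden (BE.repr Y i) (1 / ((j : ℝ) + 1))
    (by positivity)
  refine ⟨fun j => ∑ i, c j i • B i, ?_⟩
  have h1 : Tendsto (fun j : ℕ => (N : ℝ) * (1 / ((j : ℝ) + 1))) atTop (𝓝 ((N : ℝ) * 0)) :=
    Tendsto.const_mul _ tendsto_one_div_add_atTop_nhds_zero_nat
  rw [mul_zero] at h1
  refine squeeze_zero (fun j => ne_nonneg' BE _) (fun j => ?_) h1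
  have e : ∀ i, BE.repr (jm (∑ i, c j i • B i) - Y) i = algebraMap k F (c j i) - BE.repr Y i := by
    intro i
    rw [map_sub, Finsupp.sub_apply, h.repr, B.repr_sum_self]
  unfold H182.ne
  calc ∑ i, ‖BE.repr (jm (∑ i, c j i • B i) - Y) i‖ ≤ ∑ _i : Fin N, 1 / ((j : ℝ) + 1) := by
        refine Finset.sum_le_sum fun i _ => ?_
        rw [e]
        exact (hc j i).le
    _ = (N : ℝ) * (1 / ((j : ℝ) + 1)) := by
        rw [Finset.sum_const, Finset.card_univ, Fintype.card_fin, nsmul_eq_mul]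

/-- **An exact pair in a local model gives approximate pairs in the algebra.** -/
theorem locPair1_of_model (C : Cub K D) (h : Mdl BE I B a jm)
    (hden : ∀ (y : F) (ε : ℝ), 0 < ε → ∃ x : k, ‖algebraMap k F x - y‖ < ε)
    (hbig : ∃ t : F, 1 < ‖t‖) (TE : E →ₗ[F] E)
    (hTE : ∀ x : D, TE (jm x) = jm (C.T x • (1 : D))) {x : D} {W G M : E}
    (hW : I.τ W * W = 1) (hG : I.τ G * G = 1) (hXWG : jm x * W * G = G * W)
    (hM : ((3 : F) • (W * W) - (2 : F) • (TE W * W) +
      (2⁻¹ : F) • (TE W * TE W - TE (W * W))) * M = 1)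
    (hsp : W * (jm x - 1) * W ∉
      Submodule.span F (Set.range fun e : K => jm (e • (x⁻¹ - 1)))) :
    H3.LocPair1 C B a x := by
  obtain ⟨P, hPd⟩ : ∃ P, P = (3 : F) • (W * W) - (2 : F) • (TE W * W) +
      (2⁻¹ : F) • (TE W * TE W - TE (W * W)) := ⟨_, rfl⟩
  rw [← hPd] at hM
  obtain ⟨c₀, hc₀, hdist⟩ := exists_dist (BE := BE) hbig _ hsp
  obtain ⟨C₁, hC₁, hCm⟩ := ne_mul BE
  obtain ⟨w, hw⟩ := exists_limE h hden W
  obtain ⟨g, hg⟩ := exists_limE h hden G
  have hMn := ne_nonneg' BE M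
  refine ⟨max (ne BE W + 1) (max (ne BE G + 1) (2 * ne BE M)), c₀ / 2, by positivity,
    fun δ hδ => ?_⟩
  -- the limits
  have hdPl : LimE BE (fun j => jm (dP C (w j))) P := by
    have h1 : ∀ j, jm (dP C (w j)) = (3 : F) • (jm (w j) * jm (w j)) -
        (2 : F) • (TE (jm (w j)) * jm (w j)) +
        (2⁻¹ : F) • (TE (jm (w j)) * TE (jm (w j)) - TE (jm (w j) * jm (w j))) := by
      intro j
      rw [dP_k (k := k), map_add, map_sub, h.smul, h.smul, h.smul, map_mul, map_mul, map_sub,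
        map_mul, hTE, ← map_mul jm (w j) (w j), hTE, map_ofNat, map_ofNat, map_inv₀, map_ofNat]
      rfl
    simp only [h1]
    rw [hPd]
    exact (((hw.mul hw).smul _).sub (((hw.lin TE).mul hw).smul _)).add
      ((((hw.lin TE).mul (hw.lin TE)).sub ((hw.mul hw).lin TE)).smul _)
  have h1 : LimE BE (fun j => jm (star (w j) * w j - 1)) 0 := by
    have h2 := ((hw.lin I.τ).mul hw).sub (LimE.const (BE := BE) (1 : E))
    rw [hW, sub_self] at h2
    have e : ∀ j, jm (star (w j) * w j - 1) = I.τ (jm (w j)) * jm (w j) - 1 := by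
      intro j
      rw [map_sub, map_mul, map_one, h.star]
    simp only [e]
    exact h2
  have h2 : LimE BE (fun j => jm (star (g j) * g j - 1)) 0 := by
    have h2 := ((hg.lin I.τ).mul hg).sub (LimE.const (BE := BE) (1 : E))
    rw [hG, sub_self] at h2
    have e : ∀ j, jm (star (g j) * g j - 1) = I.τ (jm (g j)) * jm (g j) - 1 := by
      intro j
      rw [map_sub, map_mul, map_one, h.star]
    simp only [e]
    exact h2
  have h3 : LimE BE (fun j => jm (x * w j * g j - g j * w j)) 0 := by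
    have h2 := (((LimE.const (BE := BE) (jm x)).mul hw).mul hg).sub (hg.mul hw)
    rw [hXWG, sub_self] at h2
    simp only [map_sub, map_mul]
    exact h2
  have h4 : LimE BE (fun j => jm (w j * (x - 1) * w j)) (W * (jm x - 1) * W) := by
    simp only [map_mul, map_sub, map_one]
    exact (hw.mul (LimE.const _)).mul hw
  -- the inverse of the derivative
  have hθ : 0 < 1 / (2 * (C₁ * C₁ * ne BE M + 1)) := by positivity
  have hone : 0 < ne BE (1 : E) := by
    rw [← map_one jm, h.ne]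
    exact na_pos B a one_ne_zero
  have hθ' : 0 < ne BE (1 : E) / (2 * (C₁ * ne BE M + 1)) := by positivity
  have hall := (hw.bdd.and hg.bdd).and ((hdPl.ev_lt hθ).and ((hdPl.ev_lt hθ').and
    ((h1.ev_lt hδ).and ((h2.ev_lt hδ).and ((h3.ev_lt hδ).and (h4.ev_lt (half_pos hc₀)))))))
  obtain ⟨j, ⟨hj1, hj2⟩, hj3, hj4, hj5, hj6, hj7, hj8⟩ := hall.exists
  rw [sub_zero, h.ne] at hj5 hj6 hj7
  rw [h.ne] at hj1 hj2
  have hy0 : dP C (w j) ≠ 0 := by
    intro h0
    rw [h0, map_zero, zero_sub, ne_neg] at hj4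
    have h5 : ne BE (1 : E) ≤ C₁ * ne BE P * ne BE M := by
      rw [← hM]
      exact hCm _ _
    rw [lt_div_iff₀ (by positivity)] at hj4
    have h6 := ne_nonneg' BE P
    nlinarith
  obtain ⟨m, hm⟩ : ∃ m, m = (dP C (w j))⁻¹ := ⟨_, rfl⟩
  have hm1 : m * dP C (w j) = 1 := by rw [hm, inv_mul_cancel₀ hy0]
  have hm2 : dP C (w j) * m = 1 := by rw [hm, mul_inv_cancel₀ hy0]
  have hmb : na B a m ≤ 2 * ne BE M := by
    rw [← h.ne]
    have e : jm m = jm m * (P - jm (dP C (w j))) * M + M := by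
      rw [mul_sub, sub_mul, mul_assoc (jm m) P M, hM, mul_one, ← map_mul, hm1, map_one, one_mul]
      abel
    have h5 : ne BE (jm m) ≤ C₁ * (C₁ * ne BE (jm m) * ne BE (P - jm (dP C (w j)))) * ne BE M +
        ne BE M := by
      conv_lhs => rw [e]
      refine (ne_add_le BE _ _).trans (add_le_add ((hCm _ _).trans ?_) le_rfl)
      exact mul_le_mul_of_nonneg_right (mul_le_mul_of_nonneg_left (hCm _ _) hC₁.le) hMn
    have h6 : ne BE (P - jm (dP C (w j))) = ne BE (jm (dP C (w j)) - P) := by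
      rw [← ne_neg, neg_sub]
    rw [h6] at h5
    rw [lt_div_iff₀ (by positivity)] at hj3
    have h7 := ne_nonneg' BE (jm m)
    have h8 := ne_nonneg' BE (jm (dP C (w j)) - P)
    have h9 : C₁ * C₁ * ne BE M * ne BE (jm (dP C (w j)) - P) ≤ 1 / 2 := by nlinarith
    nlinarith [mul_le_mul_of_nonneg_left h9 h7]
  refine ⟨w j, g j, m, hj1.trans (le_max_left _ _),
    hj2.trans ((le_max_left _ _).trans (le_max_right _ _)),
    hmb.trans ((le_max_right _ _).trans (le_max_right _ _)), hm2, hj5, hj6, hj7, fun e => ?_⟩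
  have h10 := hdist (jm (e • (x⁻¹ - 1))) (Submodule.subset_span ⟨e, rfl⟩)
  have h11 : W * (jm x - 1) * W - jm (e • (x⁻¹ - 1)) =
      jm (w j * (x - 1) * w j - e • (x⁻¹ - 1)) +
      -(jm (w j * (x - 1) * w j) - W * (jm x - 1) * W) := by
    rw [map_sub]
    abel
  rw [h11] at h10
  have h12 := ne_add_le BE (jm (w j * (x - 1) * w j - e • (x⁻¹ - 1)))
    (-(jm (w j * (x - 1) * w j) - W * (jm x - 1) * W))
  rw [ne_neg, h.ne] at h12
  linarith

end Vale.Agent.P011.H14
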