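import Vale.Agent.P011.H14.Glob
import Vale.Agent.P011.H929.Class3

/-!
# The move

`x` is replaced by a congruent element `x' = u (x w) u⁻¹ w⁻¹`: the pair `(w, x' w)` is a conjugate of
the pair `(w, x w)` by `u` in the second component, and at finitely many given places the element
`x'` satisfies a local condition which holds for all `u` close to a suitable element.
-/

open Module NumberField IsDedekindDomain Topology Filter

set_option linter.unusedSectionVars false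

namespace Vale.Agent.P011.H14

open Vale.Agent.P011.Arith Vale.Agent.P011.Even Vale.Agent.P011.Two Vale.Agent.P011.One
  Vale.Agent.P011.MPQ Vale.Agent.P011.H182 Vale.Agent.P011.H775 Vale.Agent.P011.H929

section cub

variable {K D : Type} [Field K] [DivisionRing D] [Algebra K D] (C : Cub K D)

theorem T_conj {u : D} (hu : u ≠ 0) (z : D) : C.T (u * z * u⁻¹) = C.T z := by
  rw [C.T_comm, ← mul_assoc, inv_mul_cancel₀ hu, one_mul]

theorem N_conj {u : D} (hu : u ≠ 0) (z : D) : C.N (u * z * u⁻¹) = C.N z := by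
  rw [C.N_mul, C.N_mul, mul_comm (C.N u), mul_assoc, ← C.N_mul, mul_inv_cancel₀ hu, C.N_one,
    mul_one]

theorem S_conj {u : D} (hu : u ≠ 0) (z : D) : C.S (u * z * u⁻¹) = C.S z := by
  rw [Cub.S, C.adj_mul_distrib, C.adj_mul_distrib, C.T_comm, mul_assoc, ← C.adj_mul_distrib,
    inv_mul_cancel₀ hu, C.adj_one, mul_one, Cub.S]

end cub

variable {k K D : Type} [Field k] [NumberField k] [Field K] [NumberField K] [StarRing K]
  [DivisionRing D] [StarRing D] [Algebra k K] [Algebra k D] [Algebra K D] [IsScalarTower k K D]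
  {d : kˣ} {s : K} {N : ℕ} {Ω : Type} [Field Ω] [Algebra K Ω]
  {B : Basis (Fin N) k D}

/-- Integral intertwiners of unit norm are transported by conjugation. -/
theorem goodInt_conj {v : HeightOneSpectrum (𝓞 k)} (hgd : Gd B (fa v)) {u w w' : D} (hu : u ≠ 0)
    (h1 : Ig B (fa v) u) (h2 : Ig B (fa v) u⁻¹) (h : GoodInt B v w w') :
    GoodInt B v w (u * w' * u⁻¹) := by
  obtain ⟨g, y, c, hg, hgI, hyI, hy, hc⟩ := h
  refine ⟨u * g, y * u⁻¹, c, ?_, hgd.mul' h1 hgI, hgd.mul' hyI h2, ?_, hc⟩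
  · calc u * w' * u⁻¹ * (u * g) = u * w' * (u⁻¹ * u) * g := by simp only [mul_assoc]
      _ = u * (w' * g) := by rw [inv_mul_cancel₀ hu, mul_one, mul_assoc]
      _ = u * g * w := by rw [hg, mul_assoc]
  · calc y * u⁻¹ * (u * g) = y * (u⁻¹ * u) * g := by simp only [mul_assoc]
      _ = algebraMap k D c := by rw [inv_mul_cancel₀ hu, mul_one, hy]

/-- **The move.**  `P v` is a local condition at `v` which holds for all `u (x w) u⁻¹ w⁻¹`, if `u` is
close to a suitable element of reduced norm one. -/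
theorem move3 (hS : Setting k K D d s) (hdeg : finrank K D = 3 ^ 2) (C : Cub K D)
    (f : D →ₐ[K] Matrix (Fin 3) (Fin 3) Ω) (B : Basis (Fin N) k D) {Q : Subgroup (SUD f)}
    [hQ : Q.Normal] (hi : Q.index ≠ 0) {q : HeightOneSpectrum (𝓞 k)}
    (hq : (Sum.inl q : Pl k) ∉ Tdiv k K D) {T S₁ : Set (HeightOneSpectrum (𝓞 k))}
    (hT : T.Finite) (hb : Bad B ⊆ T) (hS₁ : S₁.Finite)
    (hS₁T : ∀ v ∈ S₁, v ∉ T ∧ v ≠ q ∧ (Sum.inl v : Pl k) ∉ Tdiv k K D)
    (x : SUD f) {w : D} (hw : w * star w = 1) (P : HeightOneSpectrum (𝓞 k) → D → Prop)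
    (hP : ∀ v ∈ S₁, ∃ (u₀ : SUD f) (δ : ℝ), 0 < δ ∧ ∀ u : SUD f,
      na B (fa v) (((u : Dˣ) : D) - ((u₀ : Dˣ) : D)) < δ →
      P v (((u : Dˣ) : D) * (((x : Dˣ) : D) * w) * ((u : Dˣ) : D)⁻¹ * w⁻¹)) {ε : ℝ}
    (hε : 0 < ε) : ∃ x' : SUD f, x⁻¹ * x' ∈ Q ∧
      C.T (((x' : Dˣ) : D) * w) = C.T (((x : Dˣ) : D) * w) ∧
      C.S (((x' : Dˣ) : D) * w) = C.S (((x : Dˣ) : D) * w) ∧
      C.N (((x' : Dˣ) : D) * w) = C.N (((x : Dˣ) : D) * w) ∧
      (∀ v ∈ S₁, P v ((x' : Dˣ) : D)) ∧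
      (∀ v ∈ T, v ≠ q → na B (fa v) (((x' : Dˣ) : D) - ((x : Dˣ) : D)) < ε) ∧
      (∀ φ : k →+* ℂ, na B (cAbv φ) (((x' : Dˣ) : D) - ((x : Dˣ) : D)) < ε) ∧
      ∀ v, v ∉ T → v ∉ S₁ → v ≠ q →
        (GoodInt B v w (((x : Dˣ) : D) * w) → GoodInt B v w (((x' : Dˣ) : D) * w)) ∧
        (Ig B (fa v) ((x : Dˣ) : D) → Ig B (fa v) w → Ig B (fa v) ((x' : Dˣ) : D)) := by
  classical
  have hst : ∀ (c : k) (x : D), star (c • x) = c • star x :=
    fun c x => (Setting.sig hS).map_smul c x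
  have hP' : ∀ v, ∃ (u₀ : SUD f) (δ : ℝ), 0 < δ ∧ ∀ u : SUD f, v ∈ S₁ →
      na B (fa v) (((u : Dˣ) : D) - ((u₀ : Dˣ) : D)) < δ →
      P v (((u : Dˣ) : D) * (((x : Dˣ) : D) * w) * ((u : Dˣ) : D)⁻¹ * w⁻¹) := by
    intro v
    by_cases hv : v ∈ S₁
    · obtain ⟨u₀, δ, hδ, h⟩ := hP v hv
      exact ⟨u₀, δ, hδ, fun u _ => h u⟩
    · exact ⟨1, 1, one_pos, fun u h => absurd h hv⟩
  choose g δ hδ hPg using hP'
  obtain ⟨e, he, hle⟩ := exists_lower hS₁ (u := δ) fun v _ => hδ v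
  obtain ⟨u, x', hx', hQx, h1, h2, h3, h4⟩ := move hS le_rfl hdeg f B hi hq hT hb hS₁ hS₁T g x hw
    (lt_min hε he)
  have hw0 : w ≠ 0 := left_ne_zero_of_mul_eq_one hw
  have hu0 : ((u : Dˣ) : D) ≠ 0 := Units.ne_zero _
  have hx'w : ((x' : Dˣ) : D) * w = ((u : Dˣ) : D) * (((x : Dˣ) : D) * w) * ((u : Dˣ) : D)⁻¹ := by
    rw [hx', mul_assoc, inv_mul_cancel₀ hw0, mul_one]
  refine ⟨x', hQx, ?_, ?_, ?_, fun v hv => ?_, fun v hv hvq =>
    (h2 v hv hvq).2.trans_le (min_le_left _ _), fun φ => (h3 φ).2.trans_le (min_le_left _ _),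
    fun v hv hv1 hvq => ?_⟩
  · rw [hx'w, T_conj C hu0]
  · rw [hx'w, S_conj C hu0]
  · rw [hx'w, N_conj C hu0]
  · rw [hx']
    exact hPg v u hv ((h1 v hv).trans_le ((min_le_right _ _).trans (hle v hv)))
  · have hgd : Gd B (fa v) := by
      by_contra hcon
      exact hv (hb hcon)
    obtain ⟨hu1, hu2⟩ := h4 v hv hv1 hvq
    refine ⟨fun h => ?_, fun hx hwI => ?_⟩
    · rw [hx'w]
      exact goodInt_conj hgd hu0 hu1 hu2 h
    · have hwi : Ig B (fa v) w⁻¹ := by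
        rw [← eq_inv_of_mul_eq_one_right hw]
        exact hgd.star hst hwI
      rw [hx']
      exact hgd.mul' (hgd.mul' (hgd.mul' hu1 (hgd.mul' hx hwI)) hu2) hwi

end Vale.Agent.P011.H14
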