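import Vale.Agent.P011.H3.Siz
import Vale.Agent.P011.H3.LocPair1

/-!
# Targets for the line step

Null sequences and bounded sequences in `D`, sequences which stay away from the multiples of an
element, and the two sources of targets: local pairs in general position, and approximate
solutions near a global solution in general position.
-/

open Module Filter Topology

set_option linter.unusedSectionVars false

namespace Vale.Agent.P011.H14

open Vale.Agent.P011.Even Vale.Agent.P011.H182 Vale.Agent.P011.H775 Vale.Agent.P011.H929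
  Vale.Agent.P011.H3

section nul

variable {k D : Type} [Field k] [DivisionRing D] [Algebra k D] {N : ℕ}
  (B : Basis (Fin N) k D) (a : AbsoluteValue k ℝ) (ω : Filter ℕ)

/-- Null sequences. -/
def Nul (f : ℕ → D) : Prop := Tendsto (fun j => na B a (f j)) ω (𝓝 0)

/-- Bounded sequences. -/
def Bd (f : ℕ → D) : Prop := ∃ R : ℝ, ∀ j, na B a (f j) ≤ R

variable {B a ω}

theorem Nul.zero : Nul B a ω fun _ => (0 : D) := by
  unfold Nul
  simp only [na_zero]
  exact tendsto_const_nhds

theorem Nul.add {f g : ℕ → D} (hf : Nul B a ω f) (hg : Nul B a ω g) :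
    Nul B a ω fun j => f j + g j := by
  have h1 := Tendsto.add hf hg
  rw [add_zero] at h1
  exact squeeze_zero (fun j => na_nonneg B a _) (fun j => na_add_le B a _ _) h1

theorem Nul.neg {f : ℕ → D} (hf : Nul B a ω f) : Nul B a ω fun j => -f j := by
  unfold Nul
  simp only [na_neg]
  exact hf

theorem Nul.sub {f g : ℕ → D} (hf : Nul B a ω f) (hg : Nul B a ω g) :
    Nul B a ω fun j => f j - g j := by
  simp only [sub_eq_add_neg]
  exact hf.add hg.neg

theorem Nul.lin {f : ℕ → D} (hf : Nul B a ω f) (L : D →ₗ[k] D) :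
    Nul B a ω fun j => L (f j) := by
  obtain ⟨C, -, hL⟩ := na_linear B a L
  have h1 := Tendsto.const_mul C hf
  rw [mul_zero] at h1
  exact squeeze_zero (fun j => na_nonneg B a _) (fun j => hL _) h1

theorem Nul.mul_bd {f g : ℕ → D} (hf : Nul B a ω f) (hg : Bd B a g) :
    Nul B a ω fun j => f j * g j := by
  obtain ⟨C, hC, hm⟩ := na_mul B a
  obtain ⟨R, hR⟩ := hg
  have h1 := Tendsto.const_mul (C * R) hf
  rw [mul_zero] at h1
  refine squeeze_zero (fun j => na_nonneg B a _) (fun j => (hm _ _).trans ?_) h1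
  have h2 : C * na B a (f j) * na B a (g j) ≤ C * na B a (f j) * R :=
    mul_le_mul_of_nonneg_left (hR j) (mul_nonneg (by linarith) (na_nonneg B a _))
  linarith

theorem Nul.bd_mul {f g : ℕ → D} (hf : Bd B a f) (hg : Nul B a ω g) :
    Nul B a ω fun j => f j * g j := by
  obtain ⟨C, hC, hm⟩ := na_mul B a
  obtain ⟨R, hR⟩ := hf
  have h1 := Tendsto.const_mul (C * R) hg
  rw [mul_zero] at h1
  refine squeeze_zero (fun j => na_nonneg B a _) (fun j => (hm _ _).trans ?_) h1
  have h2 : C * na B a (f j) ≤ C * R := mul_le_mul_of_nonneg_left (hR j) (by linarith)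
  exact mul_le_mul_of_nonneg_right h2 (na_nonneg B a _)

theorem Bd.const (c : D) : Bd B a fun _ => c := ⟨na B a c, fun _ => le_rfl⟩

theorem Bd.add {f g : ℕ → D} (hf : Bd B a f) (hg : Bd B a g) : Bd B a fun j => f j + g j := by
  obtain ⟨R, hR⟩ := hf
  obtain ⟨S, hS⟩ := hg
  exact ⟨R + S, fun j => (na_add_le B a _ _).trans (add_le_add (hR j) (hS j))⟩

theorem Bd.neg {f : ℕ → D} (hf : Bd B a f) : Bd B a fun j => -f j := by
  obtain ⟨R, hR⟩ := hf
  exact ⟨R, fun j => by rw [na_neg]; exact hR j⟩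

theorem Bd.sub {f g : ℕ → D} (hf : Bd B a f) (hg : Bd B a g) : Bd B a fun j => f j - g j := by
  simp only [sub_eq_add_neg]
  exact hf.add hg.neg

theorem Bd.lin {f : ℕ → D} (hf : Bd B a f) (L : D →ₗ[k] D) : Bd B a fun j => L (f j) := by
  obtain ⟨C, hC, hL⟩ := na_linear B a L
  obtain ⟨R, hR⟩ := hf
  exact ⟨C * R, fun j => (hL _).trans (mul_le_mul_of_nonneg_left (hR j) hC.le)⟩

theorem Bd.mul {f g : ℕ → D} (hf : Bd B a f) (hg : Bd B a g) : Bd B a fun j => f j * g j := by
  obtain ⟨C, hC, hm⟩ := na_mul B a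
  obtain ⟨R, hR⟩ := hf
  obtain ⟨S, hS⟩ := hg
  refine ⟨C * R * S, fun j => (hm _ _).trans ?_⟩
  have h1 : C * na B a (f j) ≤ C * R := mul_le_mul_of_nonneg_left (hR j) (by linarith)
  have h2 : 0 ≤ C * na B a (f j) := mul_nonneg (by linarith) (na_nonneg B a _)
  exact mul_le_mul h1 (hS j) (na_nonneg B a _) (h2.trans h1)

/-- Sequences which converge to a constant. -/
def Lm (B : Basis (Fin N) k D) (a : AbsoluteValue k ℝ) (ω : Filter ℕ) (f : ℕ → D) (c : D) : Prop :=
  Nul B a ω fun j => f j - c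

theorem Lm.const (c : D) : Lm B a ω (fun _ => c) c := by
  unfold Lm
  simp only [sub_self]
  exact Nul.zero

theorem Lm.add {f g : ℕ → D} {c e : D} (hf : Lm B a ω f c) (hg : Lm B a ω g e) :
    Lm B a ω (fun j => f j + g j) (c + e) := by
  have h := Nul.add hf hg
  have e1 : (fun j => f j + g j - (c + e)) = fun j => (f j - c) + (g j - e) := by
    funext j
    abel
  unfold Lm
  rw [e1]
  exact h

theorem Lm.sub {f g : ℕ → D} {c e : D} (hf : Lm B a ω f c) (hg : Lm B a ω g e) :
    Lm B a ω (fun j => f j - g j) (c - e) := by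
  have h := Nul.sub hf hg
  have e1 : (fun j => f j - g j - (c - e)) = fun j => (f j - c) - (g j - e) := by
    funext j
    abel
  unfold Lm
  rw [e1]
  exact h

theorem Lm.lin {f : ℕ → D} {c : D} (hf : Lm B a ω f c) (L : D →ₗ[k] D) :
    Lm B a ω (fun j => L (f j)) (L c) := by
  have h := Nul.lin hf L
  unfold Lm
  simp only [map_sub] at h
  exact h

theorem Lm.mul {f g : ℕ → D} {c e : D} (hf : Lm B a ω f c) (hg : Lm B a ω g e)
    (hb : Bd B a g) : Lm B a ω (fun j => f j * g j) (c * e) := by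
  have h := (Nul.mul_bd hf hb).add (Nul.bd_mul (Bd.const c) hg)
  have e1 : (fun j => f j * g j - c * e) = fun j => (f j - c) * g j + c * (g j - e) := by
    funext j
    rw [sub_mul, mul_sub]
    abel
  unfold Lm
  rw [e1]
  exact h

end nul

section ns

variable {k K D : Type} [Field k] [Field K] [DivisionRing D] [Algebra k K]
  [Algebra k D] [Algebra K D] {N : ℕ} {B : Basis (Fin N) k D} {a : AbsoluteValue k ℝ}
  {ω : Filter ℕ}

/-- A sequence at a positive distance from the multiples of `P`. -/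
theorem ns_of_dist [ω.NeBot] {c : ℝ} (hc : 0 < c) {P : D} {Q : ℕ → D}
    (h : ∀ j, ∀ e : K, c ≤ na B a (Q j - e • P)) :
    NS ω (nK (K := K) B a) P Q := by
  intro m t e R hQ
  by_contra hcon
  push Not at hcon
  have h1 : ∀ i ∈ (Finset.univ : Finset (Fin m)),
      Tendsto (fun j => na B a (R j i • t i)) ω (𝓝 0) := by
    intro i _
    have h2 : Nul B a ω fun j => algebraMap K D (R j i) := hcon i
    have h3 := h2.mul_bd (Bd.const (t i))
    have e1 : (fun j => na B a (R j i • t i)) =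
        fun j => na B a (algebraMap K D (R j i) * t i) := by
      funext j
      rw [Algebra.smul_def]
    rw [e1]
    exact h3
  have h2 := tendsto_finsetSum _ h1
  rw [Finset.sum_const_zero] at h2
  have h3 : ∀ᶠ j in ω, ∑ i, na B a (R j i • t i) < c := (tendsto_order.mp h2).2 c hc
  obtain ⟨j, hj⟩ := h3.exists
  have h4 := h j (e j)
  rw [hQ j, add_sub_cancel_left] at h4
  exact absurd (h4.trans (na_sum_le B a _ _)) (not_le.mpr hj)

variable [IsScalarTower k K D]

theorem sz_pos {b : K → ℝ} (hb : Sz b) {x : K} (hx : x ≠ 0) : 0 < b x := by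
  obtain ⟨c, hc, h⟩ := hb.mul
  have h1 := h x x⁻¹
  rw [mul_inv_cancel₀ hx] at h1
  rcases (hb.nonneg x).lt_or_eq with h2 | h2
  · exact h2
  · rw [← h2, zero_mul, mul_zero] at h1
    exact absurd hb.one (not_lt.mpr h1)

/-- Two independent elements, separated by linear forms. -/
theorem exists_forms {P0 Q0 : D} (hP0 : P0 ≠ 0) (h : ∀ e : K, Q0 ≠ e • P0) :
    ∃ l1 l2 : D →ₗ[K] K, l1 P0 = 1 ∧ l2 P0 = 0 ∧ l2 Q0 = 1 := by
  have h1 : Q0 ∉ Submodule.span K {P0} := by
    intro h2
    obtain ⟨e, he⟩ := Submodule.mem_span_singleton.mp h2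
    exact h e he.symm
  obtain ⟨l2, hl2, hl3⟩ := Submodule.exists_dual_map_eq_bot_of_notMem h1 inferInstance
  obtain ⟨l1, hl1⟩ := Module.Projective.exists_dual_ne_zero K hP0
  refine ⟨(l1 P0)⁻¹ • l1, (l2 Q0)⁻¹ • l2, ?_, ?_, ?_⟩
  · rw [LinearMap.smul_apply, smul_eq_mul, inv_mul_cancel₀ hl1]
  · have h3 : l2 P0 ∈ (Submodule.span K {P0}).map l2 :=
      Submodule.mem_map_of_mem (Submodule.mem_span_singleton_self P0)
    rw [hl3, Submodule.mem_bot] at h3
    rw [LinearMap.smul_apply, h3, smul_zero]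
  · rw [LinearMap.smul_apply, smul_eq_mul, inv_mul_cancel₀ hl2]

theorem sz_sum_le {b : K → ℝ} (hb : Sz b) {ι : Type} (s : Finset ι) (f : ι → K) :
    b (∑ i ∈ s, f i) ≤ ∑ i ∈ s, b (f i) := by
  classical
  induction s using Finset.induction_on with
  | empty => rw [Finset.sum_empty, Finset.sum_empty, hb.zero]
  | insert c s hc ih =>
    rw [Finset.sum_insert hc, Finset.sum_insert hc]
    exact (hb.add _ _).trans (add_le_add le_rfl ih)

/-- A linear form with values in the centre, as a linear map of `D`. -/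
noncomputable def frm (k : Type) [Field k] [Algebra k K] [Algebra k D] [IsScalarTower k K D]
    (l : D →ₗ[K] K) : D →ₗ[k] D :=
  ((Algebra.linearMap K D).comp l).restrictScalars k

theorem frm_apply (l : D →ₗ[K] K) (x : D) : frm k l x = algebraMap K D (l x) := rfl

/-- Near a pair of independent elements, sequences stay away from the multiples. -/
theorem ns_of_near {ι : Type} [Fintype ι] {b : ι → K → ℝ} (hb : Comps B a b)
    {P0 Q0 : D} (hP0 : P0 ≠ 0) (h : ∀ e : K, Q0 ≠ e • P0) :
    ∃ γ : ℝ, 0 < γ ∧ ∀ ω : Filter ℕ, ω.NeBot → ∀ (P : D) (Q : ℕ → D), na B a (P - P0) < γ →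
      (∀ j, na B a (Q j - Q0) < γ) → ∀ i, NS ω (b i) P Q := by
  obtain ⟨l1, l2, h1, h2, h3⟩ := exists_forms hP0 h
  have := hb.ne
  obtain ⟨i0, hi0⟩ := Finite.exists_min fun i => b i 1
  have hi1 : 0 < b i0 1 := (hb.sz i0).one
  obtain ⟨c, hc, hle⟩ := hb.le
  have hLU : LU B a fun v : Fin 2 → D => frm k l1 (v 0) * frm k l2 (v 1) -
      frm k l2 (v 0) * frm k l1 (v 1) :=
    (((LU.proj 0).lin _).mul ((LU.proj 1).lin _)).sub
      (((LU.proj 0).lin _).mul ((LU.proj 1).lin _))
  obtain ⟨-, -, hLU⟩ := hLU (na B a P0 + na B a Q0 + 1)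
  obtain ⟨δ, hδ, hLU⟩ := hLU (b i0 1 / (2 * c)) (by positivity)
  refine ⟨min δ 1, by positivity, fun ω _ P Q hP hQ i m t e R hR => ?_⟩
  by_contra hcon
  push Not at hcon
  have hΔ : ∀ j, l1 P * l2 (Q j) - l2 P * l1 (Q j) =
      ∑ n, R j n * (l1 P * l2 (t n) - l2 P * l1 (t n)) := by
    intro j
    rw [hR j, map_add, map_add, map_smul, map_smul, map_sum, map_sum, smul_eq_mul, smul_eq_mul,
      mul_add, mul_add, Finset.mul_sum, Finset.mul_sum]
    have e1 : l1 P * (e j * l2 P) = l2 P * (e j * l1 P) := by ring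
    rw [e1, add_sub_add_left_eq_sub, ← Finset.sum_sub_distrib]
    refine Finset.sum_congr rfl fun n _ => ?_
    rw [map_smul, map_smul, smul_eq_mul, smul_eq_mul]
    ring
  have hlow : ∀ j, b i 1 / 2 ≤ b i (l1 P * l2 (Q j) - l2 P * l1 (Q j)) := by
    intro j
    have k1 : na B a (P - P0) < δ := hP.trans_le (min_le_left _ _)
    have k2 : na B a (Q j - Q0) < δ := (hQ j).trans_le (min_le_left _ _)
    have k3 : na B a P ≤ na B a P0 + na B a Q0 + 1 := by
      have e1 : P = P0 + (P - P0) := by abel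
      rw [e1]
      refine (na_add_le B a _ _).trans ?_
      have k4 : na B a (P - P0) < 1 := hP.trans_le (min_le_right _ _)
      linarith [na_nonneg B a Q0]
    have k4 : na B a (Q j) ≤ na B a P0 + na B a Q0 + 1 := by
      have e1 : Q j = Q0 + (Q j - Q0) := by abel
      rw [e1]
      refine (na_add_le B a _ _).trans ?_
      have k4 : na B a (Q j - Q0) < 1 := (hQ j).trans_le (min_le_right _ _)
      linarith [na_nonneg B a P0]
    have k5 := hLU ![P0, Q0] ![P, Q j]
      (by
        intro i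
        fin_cases i
        · change na B a P0 ≤ _
          linarith [na_nonneg B a Q0]
        · change na B a Q0 ≤ _
          linarith [na_nonneg B a P0])
      (by
        intro i
        fin_cases i
        · exact k3
        · exact k4)
      (by
        intro i
        fin_cases i
        · change na B a (P0 - P) < δ
          rw [na_sub_comm]
          exact k1
        · change na B a (Q0 - Q j) < δ
          rw [na_sub_comm]
          exact k2)
    have k6 : frm k l1 (![P0, Q0] 0) * frm k l2 (![P0, Q0] 1) -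
        frm k l2 (![P0, Q0] 0) * frm k l1 (![P0, Q0] 1) -
        (frm k l1 (![P, Q j] 0) * frm k l2 (![P, Q j] 1) -
          frm k l2 (![P, Q j] 0) * frm k l1 (![P, Q j] 1)) =
        algebraMap K D (1 - (l1 P * l2 (Q j) - l2 P * l1 (Q j))) := by
      simp only [Matrix.cons_val_zero, Matrix.cons_val_one, frm_apply]
      rw [h1, h2, h3, map_sub, map_sub, map_mul, map_mul, map_one, map_zero, zero_mul, sub_zero,
        one_mul]
    have k7 : na B a (algebraMap K D (1 - (l1 P * l2 (Q j) - l2 P * l1 (Q j)))) <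
        b i0 1 / (2 * c) := by
      rw [← k6]
      exact k5
    have k8 := hle i (1 - (l1 P * l2 (Q j) - l2 P * l1 (Q j)))
    have k9 : c * nK B a (1 - (l1 P * l2 (Q j) - l2 P * l1 (Q j))) ≤ b i0 1 / 2 := by
      have k10 := mul_le_mul_of_nonneg_left k7.le hc.le
      have e1 : c * (b i0 1 / (2 * c)) = b i0 1 / 2 := by
        field_simp
      rw [e1] at k10
      exact k10
    have k10 := (hb.sz i).add (l1 P * l2 (Q j) - l2 P * l1 (Q j))
      (1 - (l1 P * l2 (Q j) - l2 P * l1 (Q j)))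
    rw [add_sub_cancel] at k10
    have k11 := hi0 i
    linarith
  obtain ⟨c', hc', hmul⟩ := (hb.sz i).mul
  have hlim : Tendsto (fun j => ∑ n, c' * (b i (R j n) * b i (l1 P * l2 (t n) - l2 P * l1 (t n))))
      ω (𝓝 (∑ n : Fin m, c' * (0 * b i (l1 P * l2 (t n) - l2 P * l1 (t n))))) :=
    tendsto_finsetSum _ fun n _ => Tendsto.const_mul _ ((hcon n).mul_const _)
  simp only [zero_mul, mul_zero, Finset.sum_const_zero] at hlim
  have hpos : 0 < b i 1 / 2 := by
    have := (hb.sz i).one
    positivity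
  obtain ⟨j, hj⟩ := ((tendsto_order.mp hlim).2 _ hpos).exists
  have k1 := hlow j
  rw [hΔ j] at k1
  have k2 := (sz_sum_le (hb.sz i) Finset.univ fun n =>
    R j n * (l1 P * l2 (t n) - l2 P * l1 (t n))).trans
    (Finset.sum_le_sum fun n _ => hmul (R j n) (l1 P * l2 (t n) - l2 P * l1 (t n)))
  linarith

end ns

section adj

variable {k K D : Type} [Field k] [Field K] [DivisionRing D] [Algebra k K]
  [Algebra k D] [Algebra K D] [IsScalarTower k K D] {N : ℕ} {B : Basis (Fin N) k D}
  {a : AbsoluteValue k ℝ} {ω : Filter ℕ}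

/-- The adjoint by linear maps over `k`. -/
theorem adj_frm (h2 : (2 : k) ≠ 0) (C : Cub K D) (x : D) :
    C.adj x = x * x - frm k C.T x * x +
      (2⁻¹ : k) • (frm k C.T x * frm k C.T x - frm k C.T (x * x)) := by
  have h3 : (2 : K) * C.S x = C.T x * C.T x - C.T (x * x) := by
    have h4 := congrArg C.T (C.adj_eq x)
    rw [map_add, map_sub, map_smul, map_smul, C.T_one, smul_eq_mul, smul_eq_mul] at h4
    have h5 : C.S x = C.T (C.adj x) := rfl
    rw [← h5] at h4
    linear_combination -h4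
  have h6 : (2⁻¹ : k) • (frm k C.T x * frm k C.T x - frm k C.T (x * x)) = C.S x • (1 : D) := by
    have h7 : frm k C.T x * frm k C.T x - frm k C.T (x * x) = (2 : k) • (C.S x • (1 : D)) := by
      rw [frm_apply, frm_apply, ← map_mul, ← map_sub, ← h3, Algebra.algebraMap_eq_smul_one,
        mul_smul, ← algebraMap_smul K (2 : k), map_ofNat]
    rw [h7, smul_smul, inv_mul_cancel₀ h2, one_smul]
  rw [h6, C.adj_eq, frm_apply, ← Algebra.smul_def]

theorem Bd.adj (h2 : (2 : k) ≠ 0) (C : Cub K D) {f : ℕ → D} (hf : Bd B a f) :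
    Bd B a fun j => C.adj (f j) := by
  have e : (fun j => C.adj (f j)) = fun j => f j * f j - frm k C.T (f j) * f j +
      ((2⁻¹ : k) • LinearMap.id (R := k) (M := D)) (frm k C.T (f j) * frm k C.T (f j) -
        frm k C.T (f j * f j)) := by
    funext j
    rw [adj_frm h2]
    rfl
  rw [e]
  exact ((hf.mul hf).sub ((hf.lin _).mul hf)).add
    ((((hf.lin _).mul (hf.lin _)).sub ((hf.mul hf).lin _)).lin _)

theorem Lm.adj (h2 : (2 : k) ≠ 0) (C : Cub K D) {f : ℕ → D} {c : D} (hf : Lm B a ω f c)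
    (hb : Bd B a f) : Lm B a ω (fun j => C.adj (f j)) (C.adj c) := by
  have e : (fun j => C.adj (f j)) = fun j => f j * f j - frm k C.T (f j) * f j +
      ((2⁻¹ : k) • LinearMap.id (R := k) (M := D)) (frm k C.T (f j) * frm k C.T (f j) -
        frm k C.T (f j * f j)) := by
    funext j
    rw [adj_frm h2]
    rfl
  have e' : C.adj c = c * c - frm k C.T c * c +
      ((2⁻¹ : k) • LinearMap.id (R := k) (M := D)) (frm k C.T c * frm k C.T c -
        frm k C.T (c * c)) := by
    rw [adj_frm h2]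
    rfl
  rw [e, e']
  exact ((hf.mul hf hb).sub ((hf.lin _).mul hf hb)).add
    ((((hf.lin _).mul (hf.lin _) (hb.lin _)).sub ((hf.mul hf hb).lin _)).lin _)

variable [StarRing D]

/-- An approximate left inverse is an approximate right inverse. -/
theorem nul_star (h2 : (2 : k) ≠ 0) (hst : ∀ (c : k) (x : D), star (c • x) = c • star x)
    (C : Cub K D) {g : ℕ → D} (hg : Bd B a g) (hA : Nul B a ω fun j => star (g j) * g j - 1) :
    Nul B a ω fun j => g j * star (g j) - 1 := by
  let σ : D →ₗ[k] D := { toFun := star, map_add' := star_add, map_smul' := hst }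
  have hσ : Bd B a fun j => star (g j) := hg.lin σ
  have hB : Bd B a fun j => g j * star (g j) - 1 := (hg.mul hσ).sub (Bd.const 1)
  have hsg : Bd B a fun j => star (g j) * g j := hσ.mul hg
  -- the product of the norms tends to one
  have h1 : Lm B a ω (fun j => star (g j) * g j * C.adj (star (g j) * g j)) (1 * C.adj 1) :=
    Lm.mul hA (Lm.adj h2 C hA hsg) (hsg.adj h2 C)
  have h3 : Nul B a ω fun j => (g j * star (g j) - 1) * (g j * C.adj (g j)) := by
    have h4 := ((Nul.bd_mul hg hA).mul_bd (hg.adj h2 C))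
    have e : (fun j => (g j * star (g j) - 1) * (g j * C.adj (g j))) =
        fun j => g j * (star (g j) * g j - 1) * C.adj (g j) := by
      funext j
      noncomm_ring
    rw [e]
    exact h4
  have h5 := h3.mul_bd (hσ.mul (hσ.adj h2 C))
  have h6 := Nul.bd_mul hB h1
  have h7 := h5.sub h6
  have e : (fun j => g j * star (g j) - 1) = fun j =>
      (g j * star (g j) - 1) * (g j * C.adj (g j)) * (star (g j) * C.adj (star (g j))) -
      (g j * star (g j) - 1) * (star (g j) * g j * C.adj (star (g j) * g j) - 1 * C.adj 1) := by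
    funext j
    rw [C.mul_adj, C.mul_adj, C.mul_adj, C.adj_one, C.N_mul, mul_one, mul_assoc, ← mul_sub,
      smul_mul_smul_comm, mul_one, mul_comm (C.N (g j)), sub_sub_cancel, mul_one]
  rw [e]
  exact h7

/-- The trace condition from an approximate pair. -/
theorem nul_trace (h2 : (2 : k) ≠ 0) (hst : ∀ (c : k) (x : D), star (c • x) = c • star x)
    (C : Cub K D) {x : D} {w g : ℕ → D} (hw : Bd B a w) (hg : Bd B a g)
    (hA : Nul B a ω fun j => star (g j) * g j - 1)
    (hE : Nul B a ω fun j => x * w j * g j - g j * w j) :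
    Nul B a ω fun j => frm k C.T ((x - 1) * w j) := by
  let σ : D →ₗ[k] D := { toFun := star, map_add' := star_add, map_smul' := hst }
  have hσ : Bd B a fun j => star (g j) := hg.lin σ
  have hB := nul_star h2 hst C hg hA
  have h1 := (Nul.bd_mul hw hA).lin (frm k C.T)
  have h3 := (hE.mul_bd hσ).lin (frm k C.T)
  have h4 := (Nul.bd_mul ((Bd.const x).mul hw) hB).lin (frm k C.T)
  have h5 := (h1.add h3).sub h4
  have e : (fun j => frm k C.T ((x - 1) * w j)) = fun j =>
      frm k C.T (w j * (star (g j) * g j - 1)) +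
      frm k C.T ((x * w j * g j - g j * w j) * star (g j)) -
      frm k C.T (x * w j * (g j * star (g j) - 1)) := by
    funext j
    rw [frm_apply, frm_apply, frm_apply, frm_apply, ← map_add, ← map_sub]
    congr 1
    have h6 : C.T (w j * (star (g j) * g j)) = C.T (g j * w j * star (g j)) := by
      rw [← mul_assoc, C.T_comm, ← mul_assoc]
    rw [mul_sub, mul_one, map_sub, h6, sub_mul, sub_mul, mul_sub, mul_one, map_sub, map_sub,
      map_sub, one_mul, mul_assoc (x * w j)]
    ring
  rw [e]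
  exact h5

/-- **Targets from local pairs in general position.** -/
theorem tgt_of_locPair1' (h2 : (2 : k) ≠ 0)
    (hst : ∀ (c : k) (x : D), star (c • x) = c • star x) (C : Cub K D) (B : Basis (Fin N) k D)
    {a : AbsoluteValue k ℝ} {x : D} (h : LocPair1 C B a x) :
    ∃ (R : ℝ) (w g m : ℕ → D), (∀ ω : Filter ℕ, ω.NeBot → ω ≤ atTop →
        Tgt C B a ω x (fun _ : Unit => nK B a) w) ∧
      (∀ j, na B a (w j) ≤ R ∧ na B a (g j) ≤ R ∧ na B a (m j) ≤ R) ∧
      (∀ j, dP C (w j) * m j = 1) ∧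
      (∀ j : ℕ, na B a (star (g j) * g j - 1) < 1 / ((j : ℝ) + 1)) ∧
      ∀ j : ℕ, na B a (x * w j * g j - g j * w j) < 1 / ((j : ℝ) + 1) := by
  obtain ⟨R, c, hc, h⟩ := h
  choose w g m h1 h3 h4 h5 h6 h7 h8 h9 using fun j : ℕ =>
    h (1 / ((j : ℝ) + 1)) Nat.one_div_pos_of_nat
  have hlim : ∀ f : ℕ → D, (∀ j : ℕ, na B a (f j) < 1 / ((j : ℝ) + 1)) → Nul B a atTop f :=
    fun f hf => squeeze_zero (fun j => na_nonneg B a _) (fun j => (hf j).le)
      tendsto_one_div_add_atTop_nhds_zero_nat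
  refine ⟨R, w, g, m, fun ω _ hω => ⟨⟨R, h1⟩, (hlim _ h6).mono_left hω, ?_,
    fun _ => ns_of_dist hc h9⟩, fun j => ⟨h1 j, h3 j, h4 j⟩, h5, h7, h8⟩
  exact (nul_trace h2 hst C ⟨R, h1⟩ ⟨R, h3⟩ (hlim _ h7) (hlim _ h8)).mono_left hω

/-- **Targets near a global solution in general position.** -/
theorem tgt_of_n0' (hst : ∀ (c : k) (x : D), star (c • x) = c • star x) (C : Cub K D)
    (B : Basis (Fin N) k D) {a : AbsoluteValue k ℝ} {ι : Type} [Fintype ι]
    {b : ι → K → ℝ} (hb : Comps B a b) {x0 w0 : D} (hx0 : x0 * star x0 = 1)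
    (h0 : ∀ e : K, w0 * (x0 - 1) * w0 ≠ e • (x0⁻¹ - 1)) :
    ∃ γ : ℝ, 0 < γ ∧ ∀ ω : Filter ℕ, ω.NeBot →
      ∀ (x : D) (w : ℕ → D), x * star x = 1 → na B a (x - x0) < γ →
      (∀ j, w j * star (w j) = 1) → (∀ j, na B a (w j - w0) < γ) →
      Tendsto (fun j => nK B a (C.T ((x - 1) * w j))) ω (𝓝 0) → Tgt C B a ω x b w := by
  have hinv : ∀ y : D, y * star y = 1 → y⁻¹ = star y := fun y hy =>
    (eq_inv_of_mul_eq_one_right hy).symm
  have hP0 : x0⁻¹ - 1 ≠ 0 := by
    intro h1
    have h3 : x0 = 1 := inv_eq_one.mp (sub_eq_zero.mp h1)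
    apply h0 0
    rw [h3, sub_self, mul_zero, zero_mul, zero_smul]
  obtain ⟨γ, hγ, hns⟩ := ns_of_near hb hP0 h0
  let σ : D →ₗ[k] D := { toFun := star, map_add' := star_add, map_smul' := hst }
  obtain ⟨Cσ, hCσ, hσ⟩ := na_linear B a σ
  have hLU : LU B a fun v : Fin 2 → D => v 1 * (v 0 - 1) * v 1 :=
    ((LU.proj 1).mul ((LU.proj 0).sub (LU.const 1))).mul (LU.proj 1)
  obtain ⟨-, -, hLU⟩ := hLU (na B a x0 + na B a w0 + 1)
  obtain ⟨δ, hδ, hLU⟩ := hLU γ hγ
  refine ⟨min (min δ (γ / Cσ)) 1, by positivity, fun ω hω x w hx hxx hw hww hT => ?_⟩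
  have hmin1 : min (min δ (γ / Cσ)) 1 ≤ δ := (min_le_left _ _).trans (min_le_left _ _)
  have hmin2 : min (min δ (γ / Cσ)) 1 ≤ γ / Cσ := (min_le_left _ _).trans (min_le_right _ _)
  have hmin3 : min (min δ (γ / Cσ)) 1 ≤ 1 := min_le_right _ _
  have hwb : ∀ j, na B a (w j) ≤ na B a w0 + 1 := by
    intro j
    have e : w j = w0 + (w j - w0) := by abel
    rw [e]
    refine (na_add_le B a _ _).trans ?_
    have := (hww j).trans_le hmin3
    linarith
  have hxb : na B a x ≤ na B a x0 + 1 := by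
    have e : x = x0 + (x - x0) := by abel
    rw [e]
    refine (na_add_le B a _ _).trans ?_
    have := hxx.trans_le hmin3
    linarith
  refine ⟨⟨_, hwb⟩, ?_, hT, hns ω hω _ _ ?_ fun j => ?_⟩
  · have e : (fun j => na B a (star (w j) * w j - 1)) = fun _ => 0 := by
      funext j
      rw [mul_eq_one_comm.mp (hw j), sub_self, na_zero]
    rw [e]
    exact tendsto_const_nhds
  · rw [hinv x hx, hinv x0 hx0, sub_sub_sub_cancel_right, ← star_sub]
    refine (hσ (x - x0)).trans_lt ?_
    have h1 := hxx.trans_le hmin2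
    rw [lt_div_iff₀ hCσ] at h1
    linarith
  · have h1 := hLU ![x, w j] ![x0, w0]
      (by
        intro i
        fin_cases i
        · change na B a x ≤ _
          linarith [na_nonneg B a w0]
        · change na B a (w j) ≤ _
          linarith [hwb j, na_nonneg B a x0])
      (by
        intro i
        fin_cases i
        · change na B a x0 ≤ _
          linarith [na_nonneg B a w0]
        · change na B a w0 ≤ _
          linarith [na_nonneg B a x0])
      (by
        intro i
        fin_cases i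
        · exact hxx.trans_le hmin1
        · exact (hww j).trans_le hmin1)
    exact h1

end adj

section nf

open Vale.Agent.P011.Arith Vale.Agent.P011.Two

variable {k K D : Type} [Field k] [NumberField k] [Field K] [StarRing K]
  [DivisionRing D] [StarRing D] [Algebra k K] [Algebra k D] [Algebra K D] [IsScalarTower k K D]
  {d : kˣ} {s : K} {N : ℕ} {a : AbsoluteValue k ℝ} {ω : Filter ℕ}

/-- **Targets from local pairs in general position.** -/
theorem tgt_of_locPair1 (hS : Setting k K D d s) (C : Cub K D) (B : Basis (Fin N) k D)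
    {x : D} (_hx : x * star x = 1) (h : LocPair1 C B a x) :
    ∃ (R : ℝ) (w g m : ℕ → D), (∀ ω : Filter ℕ, ω.NeBot → ω ≤ atTop →
        Tgt C B a ω x (fun _ : Unit => nK B a) w) ∧
      (∀ j, na B a (w j) ≤ R ∧ na B a (g j) ≤ R ∧ na B a (m j) ≤ R) ∧
      (∀ j, dP C (w j) * m j = 1) ∧
      (∀ j : ℕ, na B a (star (g j) * g j - 1) < 1 / ((j : ℝ) + 1)) ∧
      ∀ j : ℕ, na B a (x * w j * g j - g j * w j) < 1 / ((j : ℝ) + 1) :=
  tgt_of_locPair1' two_ne_zero (star_k hS) C B h

/-- **Targets near a global solution in general position.** -/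
theorem tgt_of_n0 (hS : Setting k K D d s) (C : Cub K D)
    (B : Basis (Fin N) k D) {ι : Type} [Fintype ι]
    {b : ι → K → ℝ} (hb : Comps B a b) {x0 w0 : D} (hx0 : x0 * star x0 = 1)
    (h0 : ∀ e : K, w0 * (x0 - 1) * w0 ≠ e • (x0⁻¹ - 1)) :
    ∃ γ : ℝ, 0 < γ ∧ ∀ ω : Filter ℕ, ω.NeBot →
      ∀ (x : D) (w : ℕ → D), x * star x = 1 → na B a (x - x0) < γ →
      (∀ j, w j * star (w j) = 1) → (∀ j, na B a (w j - w0) < γ) →
      Tendsto (fun j => nK B a (C.T ((x - 1) * w j))) ω (𝓝 0) → Tgt C B a ω x b w :=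
  tgt_of_n0' (star_k hS) C B hb hx0 h0

end nf

end Vale.Agent.P011.H14
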