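import Vale.Agent.P011.H929.LU
import Vale.Agent.P011.Pow.Kappa
import Mathlib.Analysis.SpecificLimits.Basic

/-!
# Congruent elements near four

`w = ν ^ M x + 1` is near two, uniformly in `M`, if `ν = p + u i` has norm one and is near one, and
`x` is near one; so `w J w*` is near `4 J`.
-/

open Module NumberField IsDedekindDomain

set_option linter.unusedSectionVars false

namespace Vale.Agent.P011.H14

open Vale.Agent.P011.Arith Vale.Agent.P011.Even Vale.Agent.P011.Two Vale.Agent.P011.H182
  Vale.Agent.P011.H929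
open Vale.Agent.P011.Pow

section abs

variable {k : Type} [Field k] [NumberField k]

theorem exists_lt_plAbv (v : HeightOneSpectrum (𝓞 k)) {r : ℝ} (hr : 0 < r) :
    ∃ z : k, z ≠ 0 ∧ plAbv (Sum.inl v) z < r := by
  obtain ⟨π, h1, h2⟩ := plAbv_nontrivial (F := k) (Sum.inl v)
  obtain ⟨z, hz, hz1⟩ : ∃ z : k, z ≠ 0 ∧ plAbv (Sum.inl v) z < 1 := by
    rcases lt_or_gt_of_ne h2 with h3 | h3
    · exact ⟨π, h1, h3⟩
    · refine ⟨π⁻¹, inv_ne_zero h1, ?_⟩
      rw [map_inv₀]
      exact inv_lt_one_of_one_lt₀ h3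
  obtain ⟨n, hn⟩ := exists_pow_lt_of_lt_one hr hz1
  exact ⟨z ^ n, pow_ne_zero _ hz, by rwa [map_pow]⟩

/-- The elements `p + u i` near one are closed under multiplication. -/
theorem pow_near {D : Type} [Ring D] [Algebra k D] {a : AbsoluteValue k ℝ}
    (ha : IsNonarchimedean a) {δ : k} {i : D} (hi : i * i = algebraMap k D δ) {r : ℝ}
    (hr0 : 0 < r) (hr1 : r ≤ 1) (hrδ : a δ * r ≤ 1) {p u : k} (hp : a (p - 1) < r) (hu : a u < r)
    (M : ℕ) : ∃ P U : k, (p • (1 : D) + u • i) ^ M = P • (1 : D) + U • i ∧ a (P - 1) < r ∧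
      a U < r := by
  have hle : ∀ x : k, a (x - 1) < r → a x ≤ 1 := by
    intro x hx
    have e : x = (x - 1) + 1 := by ring
    rw [e]
    refine (ha _ _).trans (max_le ?_ (by rw [map_one]))
    exact hx.le.trans hr1
  induction M with
  | zero =>
    refine ⟨1, 0, by rw [pow_zero, one_smul, zero_smul, add_zero], ?_, ?_⟩
    · rw [sub_self, map_zero]
      exact hr0
    · rw [map_zero]
      exact hr0
  | succ M ih =>
    obtain ⟨P, U, h, hP, hU⟩ := ih
    refine ⟨P * p + δ * (U * u), P * u + U * p, ?_, ?_, ?_⟩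
    · rw [pow_succ, h]
      simp only [add_mul, mul_add, smul_mul_assoc, mul_smul_comm, one_mul, mul_one, hi,
        Algebra.algebraMap_eq_smul_one]
      module
    · have e : P * p + δ * (U * u) - 1 = ((P - 1) * p + (p - 1)) + δ * (U * u) := by ring
      rw [e]
      have h1 : a ((P - 1) * p) < r := by
        rw [map_mul]
        calc a (P - 1) * a p ≤ a (P - 1) * 1 :=
              mul_le_mul_of_nonneg_left (hle p hp) (AbsoluteValue.nonneg _ _)
          _ < r := by rwa [mul_one]
      have h2 : a (δ * (U * u)) < r := by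
        rw [map_mul, map_mul]
        have h3 : a U * a u < r * r :=
          mul_lt_mul'' hU hu (AbsoluteValue.nonneg _ _) (AbsoluteValue.nonneg _ _)
        rcases (AbsoluteValue.nonneg a δ).eq_or_lt with h4 | h4
        · rw [← h4, zero_mul]
          exact hr0
        · calc a δ * (a U * a u) < a δ * (r * r) := mul_lt_mul_of_pos_left h3 h4
            _ = (a δ * r) * r := by ring
            _ ≤ 1 * r := mul_le_mul_of_nonneg_right hrδ hr0.le
            _ = r := one_mul r
      exact (ha _ _).trans_lt (max_lt ((ha _ _).trans_lt (max_lt h1 hp)) h2)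
    · have h1 : a (P * u) < r := by
        rw [map_mul]
        calc a P * a u ≤ 1 * a u :=
              mul_le_mul_of_nonneg_right (hle P hP) (AbsoluteValue.nonneg _ _)
          _ < r := by rwa [one_mul]
      have h2 : a (U * p) < r := by
        rw [map_mul]
        calc a U * a p ≤ a U * 1 :=
              mul_le_mul_of_nonneg_left (hle p hp) (AbsoluteValue.nonneg _ _)
          _ < r := by rwa [mul_one]
      exact (ha _ _).trans_lt (max_lt h1 h2)

variable {D : Type} [DivisionRing D] [StarRing D] [Algebra k D] {N : ℕ}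

/-- **Near four**, in the algebra `D`. -/
theorem near_two_abs (hst : ∀ (c : k) (x : D), star (c • x) = c • star x)
    (B : Basis (Fin N) k D) (v : HeightOneSpectrum (𝓞 k)) {δ : k} {i : D}
    (hi : i * i = algebraMap k D δ) (J : D) {ε : ℝ} (hε : 0 < ε) :
    ∃ ε' : ℝ, 0 < ε' ∧ ∃ c : Z0, c ≠ 0 ∧ ∀ (X : D) (p u : k), v.valuation k (p - 1) < c →
      v.valuation k u < c → nm B (Sum.inl v) (X - 1) < ε' → ∀ M : ℕ,
        nm B (Sum.inl v) (((p • (1 : D) + u • i) ^ M * X + 1) * J *
          star ((p • (1 : D) + u • i) ^ M * X + 1) - (4 : k) • J) < ε := by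
  let σ : D →ₗ[k] D := { toFun := star, map_add' := star_add, map_smul' := hst }
  have hLU : LU B (plAbv (Sum.inl v)) fun y : Fin 1 → D => (y 0 + 1) * J * σ (y 0 + 1) :=
    (((LU.proj 0).add (LU.const 1)).mul (LU.const J)).mul
      (((LU.proj 0).add (LU.const 1)).lin σ)
  obtain ⟨-, -, hLU⟩ := hLU (na B (plAbv (Sum.inl v)) (1 : D) + 1)
  obtain ⟨η, hη, hLU⟩ := hLU ε hε
  obtain ⟨Cm, hCm, hmul⟩ := na_mul B (plAbv (Sum.inl v))
  set a := plAbv (F := k) (Sum.inl v) with ha
  have hn1 := na_nonneg B a (1 : D)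
  have hni := na_nonneg B a i
  have hδ0 := AbsoluteValue.nonneg a δ
  obtain ⟨η1, hη1⟩ : ∃ η1, η1 = min η 1 := ⟨_, rfl⟩
  have hη10 : 0 < η1 := by rw [hη1]; positivity
  obtain ⟨z, hz0, hz⟩ := exists_lt_plAbv v
    (r := min (min 1 (1 / (a δ + 1))) (η1 / (2 * (na B a (1 : D) + na B a i + 1))))
    (by positivity)
  rw [← ha] at hz
  have hzp : 0 < a z := a.pos hz0
  have hz1 : a z ≤ 1 := hz.le.trans ((min_le_left _ _).trans (min_le_left _ _))
  have hz2 : a z ≤ 1 / (a δ + 1) := hz.le.trans ((min_le_left _ _).trans (min_le_right _ _))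
  have hz3 : a z < η1 / (2 * (na B a (1 : D) + na B a i + 1)) := hz.trans_le (min_le_right _ _)
  rw [le_div_iff₀ (by positivity)] at hz2
  rw [lt_div_iff₀ (by positivity)] at hz3
  have hzδ : a δ * a z ≤ 1 := by nlinarith
  refine ⟨η1 / (2 * Cm * (na B a (1 : D) + 1)), by positivity, v.valuation k z,
    (Valuation.ne_zero_iff _).mpr hz0, fun X p u hp hu hX M => ?_⟩
  have hp' : a (p - 1) < a z := (plAbv_lt v _ _).mpr hp
  have hu' : a u < a z := (plAbv_lt v _ _).mpr hu
  obtain ⟨P, U, hPU, hP, hU⟩ := pow_near (D := D) (isNonarch v) hi hzp hz1 hzδ hp' hu' M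
  rw [hPU]
  obtain ⟨y, hy⟩ : ∃ y : D, y = P • (1 : D) + U • i := ⟨_, rfl⟩
  rw [← hy]
  have hy1 : na B a (y - 1) < η1 / 2 := by
    have e : y - 1 = (P - 1) • (1 : D) + U • i := by
      rw [hy, sub_smul, one_smul]
      abel
    rw [e]
    refine (na_add_le B a _ _).trans_lt ?_
    rw [na_smul, na_smul]
    have h1 : a (P - 1) * na B a (1 : D) ≤ a z * na B a (1 : D) :=
      mul_le_mul_of_nonneg_right hP.le hn1
    have h2 : a U * na B a i ≤ a z * na B a i := mul_le_mul_of_nonneg_right hU.le hni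
    nlinarith
  have hy2 : na B a y ≤ na B a (1 : D) + 1 := by
    have e : y = 1 + (y - 1) := by abel
    rw [e]
    refine (na_add_le B a _ _).trans ?_
    have h3 : η1 ≤ 1 := by rw [hη1]; exact min_le_right _ _
    linarith
  have hX' : na B a (X - 1) < η1 / (2 * Cm * (na B a (1 : D) + 1)) := hX
  rw [lt_div_iff₀ (by positivity)] at hX'
  have hY : na B a (y * X - 1) < η1 := by
    have e : y * X - 1 = y * (X - 1) + (y - 1) := by
      rw [mul_sub, mul_one]
      abel
    rw [e]
    refine (na_add_le B a _ _).trans_lt ?_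
    have h1 := hmul y (X - 1)
    have h2 : Cm * na B a y * na B a (X - 1) ≤ Cm * (na B a (1 : D) + 1) * na B a (X - 1) :=
      mul_le_mul_of_nonneg_right (mul_le_mul_of_nonneg_left hy2 (by linarith))
        (na_nonneg B a _)
    have h3 : Cm * (na B a (1 : D) + 1) * na B a (X - 1) < η1 / 2 := by
      have e2 : na B a (X - 1) * (2 * Cm * (na B a (1 : D) + 1)) =
          2 * (Cm * (na B a (1 : D) + 1) * na B a (X - 1)) := by ring
      linarith
    linarith
  have hη' : η1 ≤ η := by rw [hη1]; exact min_le_left _ _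
  have hη'' : η1 ≤ 1 := by rw [hη1]; exact min_le_right _ _
  have h1 := hLU ![y * X] ![1]
    (by
      intro j
      fin_cases j
      change na B a (y * X) ≤ _
      have e : y * X = 1 + (y * X - 1) := by abel
      rw [e]
      refine (na_add_le B a _ _).trans ?_
      linarith)
    (by
      intro j
      fin_cases j
      change na B a (1 : D) ≤ _
      linarith)
    (by
      intro j
      fin_cases j
      exact hY.trans_le hη')
  have e4 : ((1 : D) + 1) * J * σ (1 + 1) = (4 : k) • J := by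
    have e5 : σ ((1 : D) + 1) = 1 + 1 := by
      change star ((1 : D) + 1) = 1 + 1
      rw [star_add, star_one]
    rw [e5, Algebra.smul_def, map_ofNat]
    noncomm_ring
  have h2 : na B a ((y * X + 1) * J * σ (y * X + 1) - ((1 : D) + 1) * J * σ (1 + 1)) < ε := h1
  rw [e4] at h2
  exact h2

end abs

section frm

variable {k K D L K' C : Type} [Field k] [NumberField k] [Field K] [NumberField K] [StarRing K]
  [DivisionRing D] [StarRing D] [Algebra k K] [Algebra k D] [Algebra K D] [IsScalarTower k K D]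
  [Field L] [NumberField L] [Algebra k L] [Field K'] [StarRing K'] [NumberField K']
  [Algebra K K'] [DivisionRing C] [StarRing C] [Algebra L K'] [Algebra L C] [Algebra K' C]
  [IsScalarTower L K' C] {d : kˣ} {s : K} {a : kˣ} {t : D} {T : L} {ι : C →+* D} {N : ℕ}

/-- **Near four**, in the letters of the centralizer. -/
theorem near_two (hS : Setting k K D d s) (h : IsCent k K D L K' C t a T ι)
    (B : Basis (Fin N) k D) (v : HeightOneSpectrum (𝓞 k)) (j : D) {ε : ℝ} (hε : 0 < ε) :
    ∃ ε' : ℝ, 0 < ε' ∧ ∃ c : Z0, c ≠ 0 ∧ ∀ (x : C) (p u : k), v.valuation k (p - 1) < c →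
      v.valuation k u < c → nm B (Sum.inl v) (ι x - 1) < ε' → ∀ M : ℕ,
        nm B (Sum.inl v)
          (ι (algebraMap K' C ((kk k K K' p + kk k K K' u * om K' s T) ^ M) * x + 1) * j ^ 3 *
            star (ι (algebraMap K' C ((kk k K K' p + kk k K K' u * om K' s T) ^ M) * x + 1)) -
            (4 : k) • j ^ 3) < ε := by
  have hst : ∀ (c : k) (x : D), star (c • x) = c • star x :=
    fun c x => (Setting.sig hS).map_smul c x
  have hkk : ∀ c : k, ι (algebraMap K' C (kk k K K' c)) = c • (1 : D) := by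
    intro c
    rw [kk, RingHom.comp_apply, h.jK, ← IsScalarTower.algebraMap_apply,
      Algebra.algebraMap_eq_smul_one]
  obtain ⟨i, hid⟩ : ∃ i : D, i = ι (algebraMap K' C (om K' s T)) := ⟨_, rfl⟩
  have hi : i * i = algebraMap k D (a * d : kˣ) := by
    rw [hid, ← map_mul, ← map_mul, om_sq hS h, hkk, Units.val_mul,
      Algebra.algebraMap_eq_smul_one]
  obtain ⟨ε', hε', c, hc, hn⟩ := near_two_abs hst B v hi (j ^ 3) hε
  refine ⟨ε', hε', c, hc, fun x p u hp hu hx M => ?_⟩
  have e : ι (algebraMap K' C ((kk k K K' p + kk k K K' u * om K' s T) ^ M) * x + 1) =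
      (p • (1 : D) + u • i) ^ M * ι x + 1 := by
    rw [map_add, map_mul, map_one, map_pow, map_pow, map_add, map_add, map_mul, map_mul, hkk, hkk,
      ← hid, smul_mul_assoc, one_mul]
  rw [e]
  exact hn (ι x) p u hp hu hx M

end frm

end Vale.Agent.P011.H14
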