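import Vale.Agent.P011.H14.NS

/-!
# Good pairs are open

If there is an integral intertwiner of unit norm between `w₁` and `x w₁`, there is one between
`w` and `x w` for all `w` near `w₁` such that `w` and `x w` have the same reduced characteristic
polynomial.
-/

open Module Filter Topology

set_option linter.unusedSectionVars false

namespace Vale.Agent.P011.H14

open Vale.Agent.P011.H182 Vale.Agent.P011.H775 Vale.Agent.P011.H929

section gen

variable {k K D : Type} [Field k] [Field K] [DivisionRing D] [Algebra k K]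
  [Algebra k D] [Algebra K D] [IsScalarTower k K D] {N : ℕ} {B : Basis (Fin N) k D}
  {a : AbsoluteValue k ℝ}

theorem LU.adj' (h2 : (2 : k) ≠ 0) (C : Cub K D) {ι : Type} {f : (ι → D) → D} (hf : LU B a f) :
    LU B a fun x => C.adj (f x) := by
  have e : (fun x => C.adj (f x)) = fun x => f x * f x - frm k C.T (f x) * f x +
      ((2⁻¹ : k) • LinearMap.id (R := k) (M := D)) (frm k C.T (f x) * frm k C.T (f x) -
        frm k C.T (f x * f x)) := by
    funext x
    rw [adj_frm h2]
    rfl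
  rw [e]
  exact ((hf.mul hf).sub ((hf.lin _).mul hf)).add
    ((((hf.lin _).mul (hf.lin _)).sub ((hf.mul hf).lin _)).lin _)

/-- Continuity of the standard intertwiner. -/
theorem hr_near (h2 : (2 : k) ≠ 0) (C : Cub K D) (B : Basis (Fin N) k D) (a : AbsoluteValue k ℝ)
    (x r w1 : D) {η : ℝ} (hη : 0 < η) : ∃ δ : ℝ, 0 < δ ∧ ∀ w, na B a (w - w1) < δ →
      na B a (H948.hr C (x * w) w r - H948.hr C (x * w1) w1 r) < η := by
  have hw : LU B a fun v : Fin 1 → D => v 0 := LU.proj 0
  have hX : LU B a fun v : Fin 1 → D => x * v 0 := (LU.const x).mul hw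
  have hr : LU B a fun _ : Fin 1 → D => r := LU.const r
  have h := (((hX.mul hX).mul hr).add ((hX.mul hr).mul (hw.sub (hw.lin (frm k C.T))))).add
    (hr.mul (LU.adj' h2 C hw))
  obtain ⟨-, -, h⟩ := h (na B a w1 + 1)
  obtain ⟨δ, hδ, h⟩ := h η hη
  refine ⟨min δ 1, by positivity, fun w hww => ?_⟩
  have h1 := h ![w] ![w1]
    (by
      intro i
      fin_cases i
      change na B a w ≤ _
      have e : w = w1 + (w - w1) := by abel
      rw [e]
      refine (na_add_le B a _ _).trans ?_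
      linarith [hww.trans_le (min_le_right _ _)])
    (by
      intro i
      fin_cases i
      change na B a w1 ≤ _
      linarith)
    (by
      intro i
      fin_cases i
      exact hww.trans_le (min_le_left _ _))
  have e : ∀ w : D, H948.hr C (x * w) w r = x * w * (x * w) * r +
      x * w * r * (w - frm k C.T w) + r * C.adj w := by
    intro w
    rw [H948.hr, frm_apply, Algebra.algebraMap_eq_smul_one]
  rw [e, e]
  exact h1

/-- **Good pairs are open**, for any nonarchimedean absolute value. -/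
theorem good_open [StarRing D] (h2 : (2 : k) ≠ 0) (C : Cub K D) (B : Basis (Fin N) k D)
    {a : AbsoluteValue k ℝ} (ha : IsNonarchimedean a) {x w1 g1 y1 : D} {c1 : k}
    (hdP : dP C w1 ≠ 0) (hg : x * w1 * g1 = g1 * w1) (hIg : Ig B a g1) (hIy : Ig B a y1)
    (hyg : y1 * g1 = algebraMap k D c1) (hc1 : a c1 = 1) :
    ∃ δ : ℝ, 0 < δ ∧ ∀ w, na B a (w - w1) < δ → C.T (x * w) = C.T w → C.S (x * w) = C.S w →
      C.N (x * w) = C.N w → ∃ (g y : D) (c : k), x * w * g = g * w ∧ Ig B a g ∧ Ig B a y ∧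
        y * g = algebraMap k D c ∧ a c = 1 := by
  obtain ⟨M, hM, hmul⟩ := na_mul B a
  have hc0 : c1 ≠ 0 := by
    rintro rfl
    rw [map_zero] at hc1
    exact zero_ne_one hc1
  have h1 : 0 < na B a (1 : D) := na_pos B a one_ne_zero
  have hm : (dP C w1)⁻¹ * w1 = w1 * (dP C w1)⁻¹ := by
    have h3 : Commute (dP C w1) w1 := dP_comm C w1
    exact h3.inv_left₀.eq
  have e1 : H948.hr C (x * w1) w1 (g1 * (dP C w1)⁻¹) = g1 := by
    rw [hr_eq C hg hm, mul_inv_cancel₀ hdP, mul_one]
  -- the bound for the error `e`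
  obtain ⟨η1, hη1⟩ : ∃ η1, η1 = min (min (1 / (2 * M)) (na B a (1 : D)))
      (1 / (2 * M * M * na B a (1 : D) * (na B a y1 + 1))) := ⟨_, rfl⟩
  have hy0 := na_nonneg B a y1
  have hη1p : 0 < η1 := by rw [hη1]; positivity
  obtain ⟨δ, hδ, hnear⟩ := hr_near h2 C B a x (g1 * (dP C w1)⁻¹) w1
    (η := min 1 (η1 / (M * (na B a y1 + 1)))) (by positivity)
  refine ⟨δ, hδ, fun w hw hT hS hN => ?_⟩
  have hh := hnear w hw
  rw [e1] at hh
  obtain ⟨h, hhd⟩ : ∃ h, h = H948.hr C (x * w) w (g1 * (dP C w1)⁻¹) := ⟨_, rfl⟩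
  rw [← hhd] at hh
  have hconj : x * w * h = h * w := by rw [hhd]; exact H948.hr_conj C hT hS hN _
  -- the error
  obtain ⟨e, he⟩ : ∃ e, e = c1⁻¹ • (y1 * (h - g1)) := ⟨_, rfl⟩
  have hz : c1⁻¹ • (y1 * h) = 1 + e := by
    rw [he, mul_sub, smul_sub, hyg, Algebra.algebraMap_eq_smul_one, smul_smul,
      inv_mul_cancel₀ hc0, one_smul]
    abel
  have hna : na B a e < η1 := by
    rw [he, na_smul, map_inv₀, hc1, inv_one, one_mul]
    refine (hmul _ _).trans_lt ?_
    have h3 : na B a (h - g1) < η1 / (M * (na B a y1 + 1)) := hh.trans_le (min_le_right _ _)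
    rw [lt_div_iff₀ (by positivity)] at h3
    have h4 : M * na B a y1 * na B a (h - g1) ≤ M * (na B a y1 + 1) * na B a (h - g1) :=
      mul_le_mul_of_nonneg_right (mul_le_mul_of_nonneg_left (by linarith) (by linarith))
        (na_nonneg B a _)
    linarith
  have hb1 : η1 ≤ 1 / (2 * M) := by
    rw [hη1]; exact (min_le_left _ _).trans (min_le_left _ _)
  have hb2 : η1 ≤ na B a (1 : D) := by
    rw [hη1]; exact (min_le_left _ _).trans (min_le_right _ _)
  have hb3 : η1 ≤ 1 / (2 * M * M * na B a (1 : D) * (na B a y1 + 1)) := by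
    rw [hη1]; exact min_le_right _ _
  have hz0 : (1 : D) + e ≠ 0 := by
    intro h0
    have h3 : e = -1 := by
      rw [add_comm] at h0
      exact eq_neg_of_add_eq_zero_left h0
    rw [h3, na_neg] at hna
    linarith
  have hinv : na B a ((1 + e)⁻¹ : D) ≤ 2 * na B a (1 : D) := by
    have h3 : ((1 : D) + e)⁻¹ = 1 - (1 + e)⁻¹ * e := by
      have h4 : ((1 : D) + e)⁻¹ * (1 + e) = 1 := inv_mul_cancel₀ hz0
      rw [mul_add, mul_one] at h4
      exact eq_sub_of_add_eq h4
    have h4 : na B a ((1 + e)⁻¹ : D) ≤ na B a (1 : D) + na B a ((1 + e)⁻¹ * e) := by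
      conv_lhs => rw [h3]
      exact na_sub_le B a _ _
    have h5 := hmul ((1 + e)⁻¹) e
    have h6 : na B a e < 1 / (2 * M) := hna.trans_le hb1
    rw [lt_div_iff₀ (by positivity)] at h6
    have h7 := na_nonneg B a ((1 + e)⁻¹ : D)
    nlinarith
  have hdiff : na B a ((1 + e)⁻¹ * y1 - y1) ≤ 1 := by
    have h3 : (1 + e)⁻¹ * y1 - y1 = -((1 + e)⁻¹ * e * y1) := by
      have h4 : ((1 : D) + e)⁻¹ * (1 + e) = 1 := inv_mul_cancel₀ hz0
      rw [mul_add, mul_one] at h4
      have h5 : ((1 : D) + e)⁻¹ * e = 1 - (1 + e)⁻¹ := eq_sub_of_add_eq' h4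
      rw [h5, sub_mul, one_mul]
      abel
    rw [h3, na_neg]
    have h4 := hmul ((1 + e)⁻¹ * e) y1
    have h5 := hmul ((1 + e)⁻¹) e
    have h6 := hna.le.trans hb3
    rw [le_div_iff₀ (by positivity)] at h6
    have h7 : na B a ((1 + e)⁻¹ * e) ≤ M * (2 * na B a (1 : D)) * na B a e :=
      h5.trans (mul_le_mul_of_nonneg_right (mul_le_mul_of_nonneg_left hinv (by linarith))
        (na_nonneg B a _))
    have h8 : M * na B a ((1 + e)⁻¹ * e) * na B a y1 ≤
        M * (M * (2 * na B a (1 : D)) * na B a e) * (na B a y1 + 1) := by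
      have h9 : M * na B a ((1 + e)⁻¹ * e) ≤ M * (M * (2 * na B a (1 : D)) * na B a e) :=
        mul_le_mul_of_nonneg_left h7 (by linarith)
      refine mul_le_mul h9 (by linarith) hy0 ?_
      have := na_nonneg B a e
      positivity
    linarith
  refine ⟨h, (1 + e)⁻¹ * y1, c1, hconj, ?_, ?_, ?_, hc1⟩
  · have e2 : h = g1 + (h - g1) := by abel
    rw [e2]
    exact Gd.add ha hIg (ig_of_na (hh.le.trans (min_le_left _ _)))
  · have e2 : (1 + e)⁻¹ * y1 = y1 + ((1 + e)⁻¹ * y1 - y1) := by abel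
    rw [e2]
    exact Gd.add ha hIy (ig_of_na hdiff)
  · have e2 : y1 * h = c1 • (1 + e) := by
      rw [← hz, smul_smul, mul_inv_cancel₀ hc0, one_smul]
    rw [mul_assoc, e2, mul_smul_comm, inv_mul_cancel₀ hz0, Algebra.algebraMap_eq_smul_one]

end gen

section nf

open Vale.Agent.P011.Arith Vale.Agent.P011.Two Vale.Agent.P011.Even NumberField IsDedekindDomain

variable {k K D : Type} [Field k] [NumberField k] [Field K] [StarRing K]
  [DivisionRing D] [StarRing D] [Algebra k K] [Algebra k D] [Algebra K D] [IsScalarTower k K D]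
  {d : kˣ} {s : K} {N : ℕ}

/-- **Good pairs are open.** -/
theorem goodInt_open (hS : Setting k K D d s) (h9 : finrank K D = 3 ^ 2) (C : Cub K D)
    (B : Basis (Fin N) k D) (v : HeightOneSpectrum (𝓞 k)) {w1 x : D}
    (hw1 : w1 ∉ Set.range (algebraMap K D)) (h : GoodInt B v w1 (x * w1)) :
    ∃ δ : ℝ, 0 < δ ∧ ∀ w, na B (plAbv (Sum.inl v)) (w - w1) < δ → C.T (x * w) = C.T w →
      C.S (x * w) = C.S w → C.N (x * w) = C.N w → GoodInt B v w (x * w) := by
  have _ := hS.fin
  have _ := hS.cen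
  have _ := char_K hS
  have hc : ¬ ∀ y : D, y * w1 = w1 * y := by
    intro hx
    apply hw1
    have : w1 ∈ Subalgebra.center K D := Subalgebra.mem_center_iff.mpr hx
    rw [Algebra.IsCentral.center_eq_bot] at this
    exact Algebra.mem_bot.mp this
  have hone : ∀ c : k, plAbv (Sum.inl v) c = 1 ↔ v.valuation k c = 1 := by
    intro c
    have h3 := plAbv_lt (F := k) v c 1
    have h4 := plAbv_lt (F := k) v 1 c
    rw [map_one, map_one] at h3 h4
    constructor
    · intro k5
      rw [k5] at h3 h4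
      exact le_antisymm (not_lt.mp fun h5 => lt_irrefl _ (h4.mpr h5))
        (not_lt.mp fun h5 => lt_irrefl _ (h3.mpr h5))
    · intro k5
      rw [k5] at h3 h4
      exact le_antisymm (not_lt.mp fun h5 => lt_irrefl _ (h4.mp h5))
        (not_lt.mp fun h5 => lt_irrefl _ (h3.mp h5))
  obtain ⟨g1, y1, c1, hg, hIg, hIy, hyg, hc1⟩ := h
  obtain ⟨δ, hδ, h⟩ := good_open two_ne_zero C B (isNonarch v) (dP_ne_zero C h9 hw1 hc) hg hIg hIy
    hyg ((hone _).mpr hc1)
  refine ⟨δ, hδ, fun w hw hT hS' hN => ?_⟩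
  obtain ⟨g, y, c, k1, k2, k3, k4, k5⟩ := h w hw hT hS' hN
  exact ⟨g, y, c, k1, k2, k3, k4, (hone _).mp k5⟩

end nf

end Vale.Agent.P011.H14
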