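import Vale.Agent.P011.H14.Targets
import Vale.Agent.P011.H948.SIalg
import Vale.Agent.P011.H929.Class4

/-!
# The per-place inputs of the assembly over number fields
-/

open Module NumberField Filter Topology

set_option linter.unusedSectionVars false

namespace Vale.Agent.P011.H14

open Vale.Agent.P011.Even Vale.Agent.P011.H182 Vale.Agent.P011.H775 Vale.Agent.P011.H929
  Vale.Agent.P011.H948 Vale.Agent.P011.H3

section gen

variable {k K D : Type} [Field k] [Field K] [StarRing K] [DivisionRing D] [StarRing D]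
  [Algebra k K] [Algebra k D] [Algebra K D] [IsScalarTower k K D] {N : ℕ} {C : Cub K D}

/-- Targets near a given global pair, any field. -/
theorem ht2_gen (h : SCub C) (hk : ∀ c : k, star (algebraMap k K c) = algebraMap k K c)
    (h2 : (2 : k) ≠ 0) (hTx : ∃ x, C.T x ≠ 0) (B : Basis (Fin N) k D)
    (hdPne : ∀ w : D, w ∉ Set.range (algebraMap K D) → dP C w ≠ 0)
    (a : AbsoluteValue k ℝ) (ι : Type) (_ : Fintype ι) (b : ι → K → ℝ) (hb : Comps B a b)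
    (x0 w0 g0 : D) (hx0 : x0 * star x0 = 1) (hw0 : w0 * star w0 = 1) (hg0 : g0 * star g0 = 1)
    (hg : x0 * w0 * g0 = g0 * w0) (hw0K : w0 ∉ Set.range (algebraMap K D)) (hx01 : x0 ≠ 1)
    (η : ℝ) (hη : 0 < η) :
    ∃ γ : ℝ, 0 < γ ∧ ∀ x : D, x * star x = 1 → C.N x = 1 → na B a (x - x0) < γ →
      ∃ w : ℕ → D, (∀ ω : Filter ℕ, ω.NeBot → ω ≤ atTop → Tgt C B a ω x b w) ∧
      ∃ δ : ℝ, 0 < δ ∧ ∀ (j : ℕ) (w1 : D), w1 * star w1 = 1 → C.T ((x - 1) * w1) = 0 →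
        na B a (w1 - w j) < δ →
        x * w1 * hr C (x * w1) w1 (g0 * (dP C w0)⁻¹) =
          hr C (x * w1) w1 (g0 * (dP C w0)⁻¹) * w1 ∧
        na B a (hr C (x * w1) w1 (g0 * (dP C w0)⁻¹) - g0) < η ∧
        na B a (star (hr C (x * w1) w1 (g0 * (dP C w0)⁻¹)) *
          hr C (x * w1) w1 (g0 * (dP C w0)⁻¹) - 1) < η ∧
        na B a (w1 - w0) < η := by
  have hg00 : g0 ≠ 0 := left_ne_zero_of_mul_eq_one hg0
  have hw00 : w0 ≠ 0 := left_ne_zero_of_mul_eq_one hw0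
  have hns := H505.nonspec_global C hw0K hx01 hg00 hg
  have hT0 : C.T ((x0 - 1) * w0) = 0 := by
    have h1 : x0 * w0 = g0 * w0 * g0⁻¹ := by
      rw [← hg, mul_assoc (x0 * w0), mul_inv_cancel₀ hg00, mul_one]
    rw [sub_mul, one_mul, map_sub, h1, C.T_conj hg00, sub_self]
  refine target_near h hk h2 hTx B a hb hx0 hw0 hg0 hT0 hg (hdPne w0 hw0K) (fun c hc => ?_) hns hη
  apply hns c
  have hsx : star x0 = x0⁻¹ := eq_inv_of_mul_eq_one_right hx0
  have hsw : star w0 = w0⁻¹ := eq_inv_of_mul_eq_one_right hw0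
  rw [mul_assoc, hc, star_mul, star_sub, star_one, hsx, hsw, mul_smul_comm, ← mul_assoc,
    mul_inv_cancel₀ hw00, one_mul]

end gen

section nf

variable {k K D : Type} [Field k] [NumberField k] [Field K] [StarRing K]
  [DivisionRing D] [StarRing D] [Algebra k K] [Algebra k D] [Algebra K D] [IsScalarTower k K D]
  {d : kˣ} {s : K} {N : ℕ}

theorem scub_nf (hS : Setting k K D d s) (hdeg : finrank K D = 3 ^ 2) (C : Cub K D) : SCub C := by
  have := hS.fin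
  have := hS.cen
  exact sCub_of C hdeg hS.star_smul

theorem ht1_nf (hS : Setting k K D d s) (hdeg : finrank K D = 3 ^ 2) (C : Cub K D)
    (B : Basis (Fin N) k D) (a : AbsoluteValue k ℝ) (x0 : D)
    (h6 : C.T x0 + C.T (star x0) ≠ 6) :
    ∃ δ : ℝ, 0 < δ ∧ ∀ x : D, x * star x = 1 → na B a (x - x0) < δ → C.T x ≠ 3 := by
  obtain ⟨δ, hδ, h⟩ := T_ne_three (scub_nf hS hdeg C) (fun c => (hS.fix _).mpr ⟨c, rfl⟩) B a h6
  exact ⟨δ, hδ, fun x _ hx => h x hx⟩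

theorem ht2_nf (hS : Setting k K D d s) (hdeg : finrank K D = 3 ^ 2) (C : Cub K D)
    (B : Basis (Fin N) k D) (a : AbsoluteValue k ℝ) (ι : Type) (hι : Fintype ι)
    (b : ι → K → ℝ) (hb : Comps B a b) (x0 w0 g0 : D) (hx0 : x0 * star x0 = 1)
    (_hN : C.N x0 = 1) (hw0 : w0 * star w0 = 1) (hg0 : g0 * star g0 = 1)
    (hg : x0 * w0 * g0 = g0 * w0) (hw0K : w0 ∉ Set.range (algebraMap K D)) (hx01 : x0 ≠ 1)
    (η : ℝ) (hη : 0 < η) :
    ∃ γ : ℝ, 0 < γ ∧ ∀ x : D, x * star x = 1 → C.N x = 1 → na B a (x - x0) < γ →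
      ∃ w : ℕ → D, (∀ ω : Filter ℕ, ω.NeBot → ω ≤ atTop → Tgt C B a ω x b w) ∧
      ∃ δ : ℝ, 0 < δ ∧ ∀ (j : ℕ) (w1 : D), w1 * star w1 = 1 → C.T ((x - 1) * w1) = 0 →
        na B a (w1 - w j) < δ →
        x * w1 * hr C (x * w1) w1 (g0 * (dP C w0)⁻¹) =
          hr C (x * w1) w1 (g0 * (dP C w0)⁻¹) * w1 ∧
        na B a (hr C (x * w1) w1 (g0 * (dP C w0)⁻¹) - g0) < η ∧
        na B a (star (hr C (x * w1) w1 (g0 * (dP C w0)⁻¹)) *
          hr C (x * w1) w1 (g0 * (dP C w0)⁻¹) - 1) < η ∧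
        na B a (w1 - w0) < η := by
  have := hS.fin
  have := hS.cen
  have := char_K hS
  refine ht2_gen (scub_nf hS hdeg C) (fun c => (hS.fix _).mpr ⟨c, rfl⟩) two_ne_zero
    ⟨1, by rw [C.T_one]; norm_num⟩ B (fun w hw => dP_ne_zero C hdeg hw fun hx => hw ?_) a ι hι b hb
    x0 w0 g0 hx0 hw0 hg0 hg hw0K hx01 η hη
  have h1 : w ∈ Subalgebra.center K D := Subalgebra.mem_center_iff.mpr hx
  rw [Algebra.IsCentral.center_eq_bot] at h1
  exact Algebra.mem_bot.mp h1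

theorem ht3_nf (hS : Setting k K D d s) (hdeg : finrank K D = 3 ^ 2) (C : Cub K D)
    (B : Basis (Fin N) k D) (a : AbsoluteValue k ℝ) (x : D) (hx : x * star x = 1)
    (hxN : C.N x = 1) (hL : LocPair1 C B a x) (η : ℝ) (hη : 0 < η) :
    ∃ w : ℕ → D, (∀ ω : Filter ℕ, ω.NeBot → ω ≤ atTop →
        Tgt C B a ω x (fun _ : Unit => nK (K := K) B a) w) ∧
      ∃ (J : ℕ) (δ : ℝ), 0 < δ ∧ ∀ j, J ≤ j → ∀ w1 : D, w1 * star w1 = 1 →
        C.T ((x - 1) * w1) = 0 → na B a (w1 - w j) < δ →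
        ∃ h : D, x * w1 * h = h * w1 ∧ na B a (star h * h - 1) < η :=
  target_loc (scub_nf hS hdeg C) (fun c => (hS.fix _).mpr ⟨c, rfl⟩) two_ne_zero B a hx hxN hL hη

end nf

end Vale.Agent.P011.H14
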