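import Vale.Agent.P011.H3.Siz
import Vale.Agent.P011.H929.LocPair
import Vale.Agent.P011.H182.Coset3

/-!
# Degree three: the statements of the assembly
-/

open Module NumberField IsDedekindDomain Topology Filter
open scoped commutatorElement

set_option linter.unusedSectionVars false

namespace Vale.Agent.P011.H14

open Vale.Agent.P011.Arith Vale.Agent.P011.Even Vale.Agent.P011.Two Vale.Agent.P011.One
  Vale.Agent.P011.MPQ Vale.Agent.P011.H182 Vale.Agent.P011.H775 Vale.Agent.P011.H929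
  Vale.Agent.P011.H948 Vale.Agent.P011.H3

section inter

variable {K D : Type} [Field K] [DivisionRing D] [Algebra K D] (C : Cub K D)

/-- Two elements with the same reduced characteristic polynomial are conjugate, if one of them is
not central. -/
theorem exists_inter' [FiniteDimensional K D] [Algebra.IsCentral K D]
    {w w' : D} (hw : w ∉ Set.range (algebraMap K D)) (hT : C.T w' = C.T w) (hS : C.S w' = C.S w)
    (hN : C.N w' = C.N w) : ∃ g : D, g ≠ 0 ∧ w' * g = g * w := by
  have hw' : w' ∉ Set.range (algebraMap K D) := by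
    rintro ⟨c, rfl⟩
    apply hw
    have e1 : algebraMap K D c = c • (1 : D) := Algebra.algebraMap_eq_smul_one c
    have hT1 : C.T w = 3 * c := by
      rw [← hT, e1, map_smul, C.T_one, smul_eq_mul, mul_comm]
    have hS1 : C.S w = 3 * c ^ 2 := by
      rw [← hS, e1, C.S_smul]
      have : C.S (1 : D) = 3 := by
        change C.T (C.adj 1) = 3
        rw [C.adj_one, C.T_one]
      rw [this, mul_comm]
    have hN1 : C.N w = c ^ 3 := by
      rw [← hN, e1, C.N_smul, C.N_one, mul_one]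
    have h4 := C.cayley w
    rw [hT1, hS1, hN1] at h4
    have h5 : (w - c • (1 : D)) ^ 3 = 0 := by
      have h6 : (w - c • (1 : D)) ^ 3 = w * w * w - (3 * c) • (w * w) + (3 * c ^ 2) • w -
          c ^ 3 • (1 : D) := by
        simp only [pow_succ, pow_zero, one_mul, sub_mul, mul_sub, mul_one, smul_mul_assoc,
          mul_smul_comm, smul_smul, smul_sub]
        module
      rw [h6, h4]
    have h6 : w - c • (1 : D) = 0 := pow_eq_zero_iff (three_ne_zero) |>.mp h5
    exact ⟨c, by rw [e1]; exact (sub_eq_zero.mp h6).symm⟩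
  exact C.exists_conj hw hw' hT.symm hS.symm hN.symm

end inter

variable {k K D : Type} [Field k] [NumberField k] [Field K] [NumberField K] [StarRing K]
  [DivisionRing D] [StarRing D] [Algebra k K] [Algebra k D] [Algebra K D] [IsScalarTower k K D]
  {d : kˣ} {s : K} {Ω : Type} [Field Ω] [Algebra K Ω] {N : ℕ}

/-- Almost all places are good for a pair of conjugate elements. -/
theorem finite_not_good (B : Basis (Fin N) k D) {w w' g : D} (hg : g ≠ 0)
    (h : w' * g = g * w) : {v : HeightOneSpectrum (𝓞 k) | ¬ GoodInt B v w w'}.Finite := by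
  have hf : ∀ x : D, {v : HeightOneSpectrum (𝓞 k) | ¬ Ig B (plAbv (Sum.inl v)) x}.Finite := by
    intro x
    refine (Set.finite_iUnion fun i => finite_big (B.repr x i)).subset fun v hv => ?_
    simp only [Set.mem_ofPred_eq, Ig, not_forall] at hv
    obtain ⟨i, hi⟩ := hv
    exact Set.mem_iUnion.mpr ⟨i, hi⟩
  refine ((hf g).union (hf g⁻¹)).subset fun v hv => ?_
  by_contra hcon
  simp only [Set.mem_union, Set.mem_ofPred_eq, not_or, not_not] at hcon
  exact hv ⟨g, g⁻¹, 1, h, hcon.1, hcon.2, by rw [inv_mul_cancel₀ hg, map_one], map_one _⟩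

theorem na_real (φ : k →+* ℝ) (B : Basis (Fin N) k D) (x : D) :
    na B (plAbv (Sum.inr φ)) x = na B (cAbv (Complex.ofRealHom.comp φ)) x := by
  refine Finset.sum_congr rfl fun i _ => ?_
  change |φ (B.repr x i)| = ‖((φ (B.repr x i) : ℝ) : ℂ)‖
  rw [Complex.norm_real, Real.norm_eq_abs]

/-- **Reach**: from one solution to a solution near given targets, with control of the good
places. -/
def Reach (C : Cub K D) (B : Basis (Fin N) k D) (d : kˣ) : Prop :=
  ∀ x u : D, x * star x = 1 → C.N x = 1 → C.T x ≠ 3 → u * star u = 1 →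
    C.T ((x - 1) * u) = 0 → ∀ P : Set (Pl k), P.Finite → ∀ w : Pl k → ℕ → D,
    (∀ p ∈ P, ∃ (ι : Type) (_ : Fintype ι) (b : ι → K → ℝ), Comps B (plAbv p) b ∧
      ∀ ω : Filter ℕ, ω.NeBot → ω ≤ atTop → Tgt C B (plAbv p) ω x b (w p)) →
    ∀ ε : ℝ, 0 < ε → ∀ J : ℕ, ∃ w1 : D, w1 * star w1 = 1 ∧ C.T ((x - 1) * w1) = 0 ∧
      (∀ p ∈ P, ∃ j, J ≤ j ∧ na B (plAbv p) (w1 - w p j) < ε) ∧
      ∀ v : HeightOneSpectrum (𝓞 k), (Sum.inl v : Pl k) ∉ P → d ∉ LS (v.valuation k) →
        GoodInt B v u (x * u) → GoodInt B v w1 (x * w1)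

/-- **Part I**: a unitary solution for every element near the commutator of a given pair. -/
def PartI (C : Cub K D) (B : Basis (Fin N) k D) : Prop :=
  ∀ P1 : Set (HeightOneSpectrum (𝓞 k)), P1.Finite → P1.Nonempty →
    (∀ v : HeightOneSpectrum (𝓞 k), (Sum.inl v : Pl k) ∈ Tdiv k K D → v ∈ P1) →
    ∀ x0 w0 : D, x0 * star x0 = 1 → w0 * star w0 = 1 → C.T ((x0 - 1) * w0) = 0 →
      x0 * w0 ≠ w0 * x0 → C.T x0 + C.T (star x0) ≠ 6 → ∃ ε : ℝ, 0 < ε ∧
        ∀ x : D, x * star x = 1 → (∀ v ∈ P1, nm B (Sum.inl v) (x - x0) < ε) →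
          (∀ φ : k →+* ℝ, nm B (Sum.inr φ) (x - x0) < ε) →
          ∃ u : D, u * star u = 1 ∧ C.T ((x - 1) * u) = 0

/-- **Approximation of a unitary intertwiner.** -/
def AdjA (d : kˣ) (K : Type) {D : Type} [Field K] [DivisionRing D] [StarRing D] [Algebra k D]
    [Algebra K D] {N : ℕ} (B : Basis (Fin N) k D) : Prop :=
  ∀ F : Set (HeightOneSpectrum (𝓞 k)), F.Finite → (∀ v ∈ F, d ∈ LS (v.valuation k)) →
    ∀ g0 : D, g0 * star g0 = 1 → ∀ ε : ℝ, 0 < ε → ∃ δ : ℝ, 0 < δ ∧ ∀ w w' u h : D,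
      w * star w = 1 → w' * star w' = 1 → w ∉ Set.range (algebraMap K D) → u * star u = 1 →
      w' * u = u * w → h ≠ 0 → w' * h = h * w →
      (∀ v ∈ F, na B (plAbv (Sum.inl v)) (h - g0) < δ) →
      ∃ u' : D, u' * star u' = 1 ∧ w' * u' = u' * w ∧
        ∀ v ∈ F, na B (plAbv (Sum.inl v)) (u' - g0) < ε

end Vale.Agent.P011.H14
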