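import Vale.Agent.P011.H14.Open
import Vale.Agent.P011.H756.N0
import Vale.Agent.P011.H505.Xi8

/-!
# The targets of the line step, place by place

Near a given global pair, and from a local pair, there are targets such that every unitary
solution `w` near the target has an almost unitary intertwiner with `x w`. Any field.
-/

open Module Filter Topology

set_option linter.unusedSectionVars false

namespace Vale.Agent.P011.H14

open Vale.Agent.P011.H182 Vale.Agent.P011.H775 Vale.Agent.P011.H929 Vale.Agent.P011.H948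
  Vale.Agent.P011.H3

section gen

variable {k K D : Type} [Field k] [Field K] [StarRing K] [DivisionRing D] [StarRing D]
  [Algebra k K] [Algebra k D] [Algebra K D] [IsScalarTower k K D] {N : ℕ} {C : Cub K D}

theorem star_smul_gen (h : SCub C) (hk : ∀ c : k, star (algebraMap k K c) = algebraMap k K c)
    (c : k) (x : D) : star (c • x) = c • star x := by
  rw [← algebraMap_smul K c x, h.smul, hk, algebraMap_smul]

/-- The reduced trace is not three near an element with `T x + T x* ≠ 6`. -/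
theorem T_ne_three (h : SCub C) (hk : ∀ c : k, star (algebraMap k K c) = algebraMap k K c)
    (B : Basis (Fin N) k D) (a : AbsoluteValue k ℝ) {x0 : D}
    (h6 : C.T x0 + C.T (star x0) ≠ 6) :
    ∃ δ : ℝ, 0 < δ ∧ ∀ x, na B a (x - x0) < δ → C.T x ≠ 3 := by
  let σ : D →ₗ[k] D := { toFun := star, map_add' := star_add, map_smul' := star_smul_gen h hk }
  let L : D →ₗ[k] D := frm k C.T + (frm k C.T).comp σ
  have hL : ∀ x, L x = algebraMap K D (C.T x + C.T (star x)) := by
    intro x
    change frm k C.T x + frm k C.T (star x) = _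
    rw [frm_apply, frm_apply, map_add]
  obtain ⟨M, hM, hML⟩ := na_linear B a L
  have h0 : algebraMap K D (6 - (C.T x0 + C.T (star x0))) ≠ 0 := by
    intro h1
    rw [map_eq_zero] at h1
    exact h6 (sub_eq_zero.mp h1).symm
  have hpos := na_pos B a h0
  refine ⟨na B a (algebraMap K D (6 - (C.T x0 + C.T (star x0)))) / M, by positivity,
    fun x hx hT => ?_⟩
  rw [lt_div_iff₀ hM] at hx
  have h1 : L (x - x0) = algebraMap K D (6 - (C.T x0 + C.T (star x0))) := by
    rw [map_sub, hL, hL, ← map_sub, h.T x, hT, star_ofNat]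
    norm_num
  have h3 := hML (x - x0)
  rw [h1] at h3
  linarith

/-- The reduced characteristic polynomials of `x w` and `w` agree. -/
theorem sneq (h : SCub C) {x w : D} (hx : x * star x = 1) (hw : w * star w = 1)
    (hN : C.N x = 1) (hT : C.T ((x - 1) * w) = 0) :
    C.T (x * w) = C.T w ∧ C.S (x * w) = C.S w ∧ C.N (x * w) = C.N w := by
  have h1 : C.T (x * w) = C.T w := by
    rw [sub_mul, one_mul, map_sub] at hT
    exact sub_eq_zero.mp hT
  have h3 : C.N (x * w) = C.N w := by rw [C.N_mul, hN, one_mul]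
  have hS : ∀ y : D, y * star y = 1 → C.S y = C.N y * star (C.T y) := by
    intro y hy
    have hy0 : y ≠ 0 := left_ne_zero_of_mul_eq_one hy
    have e : C.S y = C.T (C.adj y) := rfl
    rw [e, C.adj_eq_inv hy0, (eq_inv_of_mul_eq_one_right hy).symm, map_smul, h.T, smul_eq_mul]
  have hxw : x * w * star (x * w) = 1 := by
    rw [star_mul, mul_assoc, ← mul_assoc w, hw, one_mul, hx]
  refine ⟨h1, ?_, h3⟩
  rw [hS _ hxw, hS _ hw, h1, h3]

/-- A solution is not central. -/
theorem not_mem_of_T {x w : D} (hw : w ≠ 0) (hT : C.T ((x - 1) * w) = 0) (h3 : C.T x ≠ 3) :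
    w ∉ Set.range (algebraMap K D) := by
  rintro ⟨c, rfl⟩
  have hc : c ≠ 0 := by
    rintro rfl
    exact hw (map_zero _)
  rw [← Algebra.commutes, ← Algebra.smul_def, map_smul, map_sub, C.T_one, smul_eq_mul] at hT
  rcases mul_eq_zero.mp hT with h1 | h1
  · exact hc h1
  · exact h3 (sub_eq_zero.mp h1)

/-- The standard intertwiner near a given pair. -/
theorem pair_near (h2 : (2 : k) ≠ 0) (hst : ∀ (c : k) (x : D), star (c • x) = c • star x)
    (C : Cub K D) (B : Basis (Fin N) k D) (a : AbsoluteValue k ℝ) {x0 w0 g0 : D}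
    (hdP : dP C w0 ≠ 0) (hg : x0 * w0 * g0 = g0 * w0) {η : ℝ} (hη : 0 < η) :
    ∃ δ : ℝ, 0 < δ ∧ ∀ x w, na B a (x - x0) < δ → na B a (w - w0) < δ →
      C.T (x * w) = C.T w → C.S (x * w) = C.S w → C.N (x * w) = C.N w →
      x * w * hr C (x * w) w (g0 * (dP C w0)⁻¹) = hr C (x * w) w (g0 * (dP C w0)⁻¹) * w ∧
      na B a (hr C (x * w) w (g0 * (dP C w0)⁻¹) - g0) < η ∧
      na B a (star (hr C (x * w) w (g0 * (dP C w0)⁻¹)) * hr C (x * w) w (g0 * (dP C w0)⁻¹) -
        star g0 * g0) < η := by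
  have hm : (dP C w0)⁻¹ * w0 = w0 * (dP C w0)⁻¹ := by
    have h3 : Commute (dP C w0) w0 := dP_comm C w0
    exact h3.inv_left₀.eq
  have e1 : hr C (x0 * w0) w0 (g0 * (dP C w0)⁻¹) = g0 := by
    rw [hr_eq C hg hm, mul_inv_cancel₀ hdP, mul_one]
  obtain ⟨r, hr'⟩ : ∃ r, r = g0 * (dP C w0)⁻¹ := ⟨_, rfl⟩
  rw [← hr'] at e1 ⊢
  let σ : D →ₗ[k] D := { toFun := star, map_add' := star_add, map_smul' := hst }
  have hw : LU B a fun v : Fin 2 → D => v 1 := LU.proj 1
  have hX : LU B a fun v : Fin 2 → D => v 0 * v 1 := (LU.proj 0).mul hw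
  have hrr : LU B a fun _ : Fin 2 → D => r := LU.const r
  have h1 := (((hX.mul hX).mul hrr).add ((hX.mul hrr).mul (hw.sub (hw.lin (frm k C.T))))).add
    (hrr.mul (LU.adj' h2 C hw))
  have h3 := (h1.lin σ).mul h1
  have e : ∀ x w : D, hr C (x * w) w r = x * w * (x * w) * r +
      x * w * r * (w - frm k C.T w) + r * C.adj w := by
    intro x w
    rw [hr, frm_apply, Algebra.algebraMap_eq_smul_one]
  obtain ⟨-, -, h1⟩ := h1 (na B a x0 + na B a w0 + 1)
  obtain ⟨δ1, hδ1, h1⟩ := h1 η hη
  obtain ⟨-, -, h3⟩ := h3 (na B a x0 + na B a w0 + 1)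
  obtain ⟨δ2, hδ2, h3⟩ := h3 η hη
  refine ⟨min (min δ1 δ2) 1, by positivity, fun x w hx hww hT hS hN =>
    ⟨hr_conj C hT hS hN _, ?_, ?_⟩⟩
  all_goals
    have hbx : na B a x ≤ na B a x0 + na B a w0 + 1 := by
      have e2 : x = x0 + (x - x0) := by abel
      rw [e2]
      refine (na_add_le B a _ _).trans ?_
      linarith [hx.trans_le (min_le_right _ _), na_nonneg B a w0]
    have hbw : na B a w ≤ na B a x0 + na B a w0 + 1 := by
      have e2 : w = w0 + (w - w0) := by abel
      rw [e2]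
      refine (na_add_le B a _ _).trans ?_
      linarith [hww.trans_le (min_le_right _ _), na_nonneg B a x0]
    have hb0 : na B a x0 ≤ na B a x0 + na B a w0 + 1 := by linarith [na_nonneg B a w0]
    have hb1 : na B a w0 ≤ na B a x0 + na B a w0 + 1 := by linarith [na_nonneg B a x0]
  · have k1 := h1 ![x, w] ![x0, w0]
      (by
        intro i
        fin_cases i
        · exact hbx
        · exact hbw)
      (by
        intro i
        fin_cases i
        · exact hb0
        · exact hb1)
      (by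
        intro i
        fin_cases i
        · exact hx.trans_le ((min_le_left _ _).trans (min_le_left _ _))
        · exact hww.trans_le ((min_le_left _ _).trans (min_le_left _ _)))
    rw [← e1, e, e]
    exact k1
  · have k1 := h3 ![x, w] ![x0, w0]
      (by
        intro i
        fin_cases i
        · exact hbx
        · exact hbw)
      (by
        intro i
        fin_cases i
        · exact hb0
        · exact hb1)
      (by
        intro i
        fin_cases i
        · exact hx.trans_le ((min_le_left _ _).trans (min_le_right _ _))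
        · exact hww.trans_le ((min_le_left _ _).trans (min_le_right _ _)))
    have k3 : star (hr C (x * w) w r) * hr C (x * w) w r - star g0 * g0 =
        star (hr C (x * w) w r) * hr C (x * w) w r -
          star (hr C (x0 * w0) w0 r) * hr C (x0 * w0) w0 r := by rw [e1]
    rw [k3, e, e]
    exact k1

/-- **Targets near a given pair.** The intertwiner is given by one formula for all places. -/
theorem target_near (h : SCub C) (hk : ∀ c : k, star (algebraMap k K c) = algebraMap k K c)
    (h2 : (2 : k) ≠ 0) (hTx : ∃ x, C.T x ≠ 0) (B : Basis (Fin N) k D) (a : AbsoluteValue k ℝ)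
    {ι : Type} [Fintype ι] {b : ι → K → ℝ} (hb : Comps B a b) {x0 w0 g0 : D}
    (hx0 : x0 * star x0 = 1) (hw0 : w0 * star w0 = 1) (hg0 : g0 * star g0 = 1)
    (hT0 : C.T ((x0 - 1) * w0) = 0) (hg : x0 * w0 * g0 = g0 * w0) (hdP : dP C w0 ≠ 0)
    (hind : ∀ c : K, (x0 - 1) * w0 ≠ c • star ((x0 - 1) * w0))
    (hns : ∀ e : K, w0 * (x0 - 1) * w0 ≠ e • (x0⁻¹ - 1)) {η : ℝ} (hη : 0 < η) :
    ∃ γ : ℝ, 0 < γ ∧ ∀ x : D, x * star x = 1 → C.N x = 1 → na B a (x - x0) < γ →
      ∃ w : ℕ → D, (∀ ω : Filter ℕ, ω.NeBot → ω ≤ atTop → Tgt C B a ω x b w) ∧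
      ∃ δ : ℝ, 0 < δ ∧ ∀ (j : ℕ) (w1 : D), w1 * star w1 = 1 → C.T ((x - 1) * w1) = 0 →
        na B a (w1 - w j) < δ →
        x * w1 * hr C (x * w1) w1 (g0 * (dP C w0)⁻¹) =
          hr C (x * w1) w1 (g0 * (dP C w0)⁻¹) * w1 ∧
        na B a (hr C (x * w1) w1 (g0 * (dP C w0)⁻¹) - g0) < η ∧
        na B a (star (hr C (x * w1) w1 (g0 * (dP C w0)⁻¹)) *
          hr C (x * w1) w1 (g0 * (dP C w0)⁻¹) - 1) < η ∧
        na B a (w1 - w0) < η := by
  have hst := star_smul_gen h hk
  obtain ⟨δF, hδF, hF⟩ := pair_near h2 hst C B a hdP hg hη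
  obtain ⟨γT, hγT, hTg⟩ := tgt_of_n0' hst C B hb hx0 hns
  obtain ⟨γN, hγN, hN⟩ := H756.n0 h hk h2 hTx B hw0 hT0 hind a
    (η := min (min (δF / 2) (η / 2)) γT) (by positivity)
  refine ⟨min (min δF γT) γN, by positivity, fun x hx hxN hxx => ?_⟩
  have hx1 : na B a (x - x0) < δF := hxx.trans_le ((min_le_left _ _).trans (min_le_left _ _))
  have hx2 : na B a (x - x0) < γT := hxx.trans_le ((min_le_left _ _).trans (min_le_right _ _))
  have hx3 : na B a (x - x0) < γN := hxx.trans_le (min_le_right _ _)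
  choose w hw1 hw2 hw3 using fun j : ℕ => hN x hx3 (1 / ((j : ℝ) + 1)) Nat.one_div_pos_of_nat
  have hlim : Tendsto (fun j => nK B a (C.T ((x - 1) * w j))) atTop (𝓝 0) := by
    refine squeeze_zero (fun j => na_nonneg B a _) (fun j => ?_)
      (tendsto_one_div_add_atTop_nhds_zero_nat (𝕜 := ℝ))
    have h3 := (hw3 j).le
    rw [← Algebra.algebraMap_eq_smul_one] at h3
    exact h3
  refine ⟨w, fun ω hω hωt => hTg ω hω x w hx hx2 hw1
    (fun j => (hw2 j).trans_le (min_le_right _ _)) (hlim.mono_left hωt),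
    min (δF / 2) (η / 2), by positivity, fun j w1 hw1u hw1T hw1j => ?_⟩
  have hd : na B a (w1 - w0) < min (δF / 2) (η / 2) + min (δF / 2) (η / 2) := by
    have e : w1 - w0 = (w1 - w j) + (w j - w0) := by abel
    rw [e]
    refine (na_add_le B a _ _).trans_lt ?_
    have := (hw2 j).trans_le (min_le_left (min (δF / 2) (η / 2)) γT)
    linarith
  have hd1 : na B a (w1 - w0) < δF := by
    have := min_le_left (δF / 2) (η / 2)
    linarith
  have hd2 : na B a (w1 - w0) < η := by
    have := min_le_right (δF / 2) (η / 2)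
    linarith
  obtain ⟨k1, k3, k4⟩ := sneq h hx hw1u hxN hw1T
  obtain ⟨k5, k6, k7⟩ := hF x w1 hx1 hd1 k1 k3 k4
  rw [mul_eq_one_comm.mp hg0] at k7
  exact ⟨k5, k6, k7, hd2⟩

/-- The standard intertwiner is near a given approximate intertwiner, uniformly. -/
theorem near_unif' (h2 : (2 : k) ≠ 0) (hst : ∀ (c : k) (x : D), star (c • x) = c • star x)
    (C : Cub K D) (B : Basis (Fin N) k D) (a : AbsoluteValue k ℝ) (x : D) (R : ℝ) {η : ℝ}
    (hη : 0 < η) :
    ∃ δ : ℝ, 0 < δ ∧ ∀ w1 g1 m1 : D, na B a w1 ≤ R → na B a g1 ≤ R → na B a m1 ≤ R →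
      dP C w1 * m1 = 1 → na B a (x * w1 * g1 - g1 * w1) < δ → ∀ w, na B a (w - w1) < δ →
      C.T (x * w) = C.T w → C.S (x * w) = C.S w → C.N (x * w) = C.N w →
      x * w * hr C (x * w) w (g1 * m1) = hr C (x * w) w (g1 * m1) * w ∧
      na B a (hr C (x * w) w (g1 * m1) - g1) < η ∧
      na B a (star (hr C (x * w) w (g1 * m1)) * hr C (x * w) w (g1 * m1) -
        star g1 * g1) < η := by
  have hf : LU B a fun v : Fin 3 → D => (x * v 0) * (x * v 0) * (v 1 * v 2) +
      (x * v 0) * (v 1 * v 2) * (v 0 - frm k C.T (v 0)) + (v 1 * v 2) * C.adj (v 0) :=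
    (((((LU.const x).mul (LU.proj 0)).mul ((LU.const x).mul (LU.proj 0))).mul
      ((LU.proj 1).mul (LU.proj 2))).add
      ((((LU.const x).mul (LU.proj 0)).mul ((LU.proj 1).mul (LU.proj 2))).mul
        ((LU.proj 0).sub ((LU.proj 0).lin (frm k C.T))))).add
      (((LU.proj 1).mul (LU.proj 2)).mul (LU.adj' h2 C (LU.proj 0)))
  have ehr : ∀ w r : D, hr C (x * w) w r = (x * w) * (x * w) * r +
      (x * w) * r * (w - frm k C.T w) + r * C.adj w := by
    intro w r
    rw [hr, frm_apply, Algebra.algebraMap_eq_smul_one]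
  have hG : LU B a fun v : Fin 3 → D => x * v 0 * v 2 * v 1 + v 2 * v 0 * v 1 +
      v 2 * (v 1 * (v 0 - frm k C.T (v 0))) :=
    (((((LU.const x).mul (LU.proj 0)).mul (LU.proj 2)).mul (LU.proj 1)).add
      (((LU.proj 2).mul (LU.proj 0)).mul (LU.proj 1))).add
      ((LU.proj 2).mul ((LU.proj 1).mul ((LU.proj 0).sub ((LU.proj 0).lin (frm k C.T)))))
  let σ : D →ₗ[k] D := { toFun := star, map_add' := star_add, map_smul' := hst }
  have hs : LU B a fun v : Fin 1 → D => σ (v 0) * v 0 := ((LU.proj 0).lin σ).mul (LU.proj 0)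
  obtain ⟨-, -, hs⟩ := hs (|R| + 1)
  obtain ⟨δ0, hδ0, hs⟩ := hs η hη
  have hη' : 0 < min (min η δ0) 1 / 2 := by positivity
  obtain ⟨-, -, hf⟩ := hf (|R| + 1)
  obtain ⟨δ1, hδ1, hf⟩ := hf _ hη'
  obtain ⟨-, -, hG⟩ := hG (|R| + 1)
  obtain ⟨δ2, hδ2, hG⟩ := hG _ hη'
  refine ⟨min (min δ1 δ2) 1, by positivity, ?_⟩
  intro w1 g1 m1 hw1 hg1 hm1 hdP he w hw hT hS' hN
  have hR := le_abs_self R
  have hδa : min (min δ1 δ2) 1 ≤ δ1 := (min_le_left _ _).trans (min_le_left _ _)
  have hδb : min (min δ1 δ2) 1 ≤ δ2 := (min_le_left _ _).trans (min_le_right _ _)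
  have hδc : min (min δ1 δ2) 1 ≤ 1 := min_le_right _ _
  have hwR : na B a w ≤ |R| + 1 := by
    have e : w = (w - w1) + w1 := by abel
    rw [e]
    refine (na_add_le B a _ _).trans ?_
    linarith
  obtain ⟨hm2, hm3⟩ := dP_inv C hdP
  have h1 : na B a (hr C (x * w1) w1 (g1 * m1) - g1) < min (min η δ0) 1 / 2 := by
    rw [hr_eq' C hm3, hdP, mul_one, add_sub_cancel_left]
    have h3 := hG ![w1, m1, x * w1 * g1 - g1 * w1] ![w1, m1, 0]
      (by
        intro i
        fin_cases i
        · change na B a w1 ≤ _; linarith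
        · change na B a m1 ≤ _; linarith
        · change na B a (x * w1 * g1 - g1 * w1) ≤ _; linarith [abs_nonneg R])
      (by
        intro i
        fin_cases i
        · change na B a w1 ≤ _; linarith
        · change na B a m1 ≤ _; linarith
        · change na B a (0 : D) ≤ _
          rw [na_zero]
          positivity)
      (by
        intro i
        fin_cases i
        · change na B a (w1 - w1) < _
          rw [sub_self, na_zero]
          exact hδ2
        · change na B a (m1 - m1) < _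
          rw [sub_self, na_zero]
          exact hδ2
        · change na B a (x * w1 * g1 - g1 * w1 - 0) < _
          rw [sub_zero]
          exact he.trans_le hδb)
    have e : ∀ E : D, x * w1 * E * m1 + E * w1 * m1 + E * (m1 * (w1 - C.T w1 • (1 : D))) =
        (fun v : Fin 3 → D => x * v 0 * v 2 * v 1 + v 2 * v 0 * v 1 +
          v 2 * (v 1 * (v 0 - frm k C.T (v 0)))) ![w1, m1, E] := by
      intro E
      simp only [Matrix.cons_val_zero, Matrix.cons_val_one, Matrix.cons_val_two,
        Matrix.head_cons, Matrix.tail_cons, frm_apply,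
        Algebra.algebraMap_eq_smul_one]
    have e0 : (fun v : Fin 3 → D => x * v 0 * v 2 * v 1 + v 2 * v 0 * v 1 +
          v 2 * (v 1 * (v 0 - frm k C.T (v 0)))) ![w1, m1, 0] = 0 := by
      rw [← e]
      simp only [mul_zero, zero_mul, add_zero]
    rw [e0, sub_zero, ← e] at h3
    exact h3
  have h3 : na B a (hr C (x * w) w (g1 * m1) - hr C (x * w1) w1 (g1 * m1)) <
      min (min η δ0) 1 / 2 := by
    have h4 := hf ![w, g1, m1] ![w1, g1, m1]
      (by
        intro i
        fin_cases i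
        · exact hwR
        · change na B a g1 ≤ _; linarith
        · change na B a m1 ≤ _; linarith)
      (by
        intro i
        fin_cases i
        · change na B a w1 ≤ _; linarith
        · change na B a g1 ≤ _; linarith
        · change na B a m1 ≤ _; linarith)
      (by
        intro i
        fin_cases i
        · exact hw.trans_le hδa
        · change na B a (g1 - g1) < _
          rw [sub_self, na_zero]
          exact hδ1
        · change na B a (m1 - m1) < _
          rw [sub_self, na_zero]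
          exact hδ1)
    rw [ehr, ehr]
    exact h4
  have h4 : na B a (hr C (x * w) w (g1 * m1) - g1) < min (min η δ0) 1 := by
    have e : hr C (x * w) w (g1 * m1) - g1 =
        (hr C (x * w) w (g1 * m1) - hr C (x * w1) w1 (g1 * m1)) +
          (hr C (x * w1) w1 (g1 * m1) - g1) := by abel
    rw [e]
    refine (na_add_le B a _ _).trans_lt ?_
    linarith
  have hηa : min (min η δ0) 1 ≤ η := (min_le_left _ _).trans (min_le_left _ _)
  have hηb : min (min η δ0) 1 ≤ δ0 := (min_le_left _ _).trans (min_le_right _ _)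
  have hηc : min (min η δ0) 1 ≤ 1 := min_le_right _ _
  refine ⟨hr_conj C hT hS' hN _, h4.trans_le hηa, ?_⟩
  refine hs ![hr C (x * w) w (g1 * m1)] ![g1] ?_ ?_ ?_
  · intro i
    fin_cases i
    change na B a (hr C (x * w) w (g1 * m1)) ≤ _
    have e : hr C (x * w) w (g1 * m1) = (hr C (x * w) w (g1 * m1) - g1) + g1 := by abel
    rw [e]
    refine (na_add_le B a _ _).trans ?_
    linarith
  · intro i
    fin_cases i
    change na B a g1 ≤ _
    linarith
  · intro i
    fin_cases i
    change na B a (hr C (x * w) w (g1 * m1) - g1) < _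
    linarith

/-- **Targets from local pairs.** -/
theorem target_loc (h : SCub C) (hk : ∀ c : k, star (algebraMap k K c) = algebraMap k K c)
    (h2 : (2 : k) ≠ 0) (B : Basis (Fin N) k D) (a : AbsoluteValue k ℝ) {x : D}
    (hx : x * star x = 1) (hxN : C.N x = 1) (hL : LocPair1 C B a x) {η : ℝ} (hη : 0 < η) :
    ∃ w : ℕ → D, (∀ ω : Filter ℕ, ω.NeBot → ω ≤ atTop →
        Tgt C B a ω x (fun _ : Unit => nK B a) w) ∧
      ∃ (J : ℕ) (δ : ℝ), 0 < δ ∧ ∀ j, J ≤ j → ∀ w1 : D, w1 * star w1 = 1 →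
        C.T ((x - 1) * w1) = 0 → na B a (w1 - w j) < δ →
        ∃ g : D, x * w1 * g = g * w1 ∧ na B a (star g * g - 1) < η := by
  have hst := star_smul_gen h hk
  obtain ⟨R, w, g, m, hTgt, hR, hm, hgg, hxg⟩ := tgt_of_locPair1' h2 hst C B hL
  obtain ⟨δ, hδ, hnear⟩ := near_unif' h2 hst C B a x R (half_pos hη)
  obtain ⟨J, hJ⟩ := exists_nat_one_div_lt (lt_min hδ (half_pos hη))
  refine ⟨w, hTgt, J, δ, hδ, fun j hj w1 hw1 hT hww => ?_⟩
  have hj' : 1 / ((j : ℝ) + 1) < min δ (η / 2) := by
    refine lt_of_le_of_lt ?_ hJ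
    have : (J : ℝ) ≤ j := by exact_mod_cast hj
    gcongr
  obtain ⟨k1, k3, k4⟩ := sneq h hx hw1 hxN hT
  obtain ⟨k5, -, k7⟩ := hnear (w j) (g j) (m j) (hR j).1 (hR j).2.1 (hR j).2.2 (hm j)
    ((hxg j).trans (hj'.trans_le (min_le_left _ _))) w1 hww k1 k3 k4
  refine ⟨_, k5, ?_⟩
  have e : star (hr C (x * w1) w1 (g j * m j)) * hr C (x * w1) w1 (g j * m j) - 1 =
      (star (hr C (x * w1) w1 (g j * m j)) * hr C (x * w1) w1 (g j * m j) -
        star (g j) * g j) + (star (g j) * g j - 1) := by abel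
  rw [e]
  refine (na_add_le B a _ _).trans_lt ?_
  have := (hgg j).trans (hj'.trans_le (min_le_right _ _))
  linarith

end gen

end Vale.Agent.P011.H14
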